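import Mathlib

/-!
# The Tate-homology step of the criterion

`R` and `S` are matrix representations of a finite group over `ZMod 2`, `τ` an involution with
centraliser `C`.  If every product of two matrix coefficients of `g ↦ R g⁻¹` annihilates `S`, and
the identity is a trace `∑ g, R g θ R g⁻¹`, then every `C`-equivariant image of `R` is separated
from the homology `ker (1 + S τ) / im (1 + S τ)` by an element `∑_{c ∈ C} A c • c`.
-/

open Finset Matrix

namespace Vale.Agent.P197.Criterion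

variable {G : Type*} [Group G] [Fintype G] [DecidableEq G]
variable {d e : Type*} [Fintype d] [DecidableEq d] [Fintype e] [DecidableEq e]

lemma sum_pairs_mem {ι M : Type*} [DecidableEq ι] [AddCommGroup M] [Module (ZMod 2) M]
    (T : M →ₗ[ZMod 2] M) (σ : ι → ι) (f : ι → M) (s : Finset ι)
    (hmem : ∀ i ∈ s, σ i ∈ s) (hfix : ∀ i ∈ s, σ i ≠ i) (hinv : ∀ i ∈ s, σ (σ i) = i)
    (hf : ∀ i ∈ s, f (σ i) = T (f i)) :
    ∑ i ∈ s, f i ∈ LinearMap.range (LinearMap.id + T) := by
  induction s using Finset.strongInduction with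
  | _ s ih =>
    rcases s.eq_empty_or_nonempty with rfl | ⟨i, hi⟩
    · simp
    set t := (s.erase i).erase (σ i)
    have ht : ∀ j, j ∈ t ↔ j ∈ s ∧ j ≠ i ∧ j ≠ σ i := by
      intro j; simp only [t, mem_erase]; tauto
    have hts : t ⊂ s :=
      (erase_subset _ _).trans_ssubset (erase_ssubset hi)
    have h1 : σ i ∈ s.erase i := mem_erase.mpr ⟨hfix i hi, hmem i hi⟩
    rw [← add_sum_erase _ _ hi, ← add_sum_erase _ _ h1, ← add_assoc]
    refine add_mem ⟨f i, ?_⟩ (ih t hts ?_ ?_ ?_ ?_)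
    · simp [hf i hi]
    · intro j hj
      obtain ⟨hj, hji, hjs⟩ := (ht j).mp hj
      refine (ht _).mpr ⟨hmem j hj, fun h => hjs ?_, fun h => hji ?_⟩
      · rw [← h, hinv j hj]
      · rw [← hinv j hj, h, hinv i hi]
    · exact fun j hj => hfix j ((ht j).mp hj).1
    · exact fun j hj => hinv j ((ht j).mp hj).1
    · exact fun j hj => hf j ((ht j).mp hj).1

variable (R : G →* Matrix d d (ZMod 2)) (S : G →* Matrix e e (ZMod 2))

/-- The matrix coefficient `g ↦ φ (R g⁻¹ v)`. -/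
def coef (φ v : d → ZMod 2) (g : G) : ZMod 2 := φ ⬝ᵥ R g⁻¹ *ᵥ v

/-- Products of two matrix coefficients of `R` annihilate `S`. -/
def Annihilates : Prop :=
  ∀ a b a' b' : d, ∑ g, (R g⁻¹ a b * R g⁻¹ a' b') • S g = 0

lemma coef_eq (φ v : d → ZMod 2) (g : G) :
    coef R φ v g = ∑ a, ∑ b, φ a * v b * R g⁻¹ a b := by
  simp only [coef, dotProduct, mulVec, mul_sum]
  exact sum_congr rfl fun a _ => sum_congr rfl fun b _ => by ring

variable {R S}

lemma Annihilates.sum_coef_mul (h : Annihilates R S) (φ v φ' v' : d → ZMod 2) :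
    ∑ g, (coef R φ v g * coef R φ' v' g) • S g = 0 := by
  simp only [coef_eq, sum_mul, mul_sum, sum_smul]
  rw [sum_comm]; refine sum_eq_zero fun a _ => ?_
  rw [sum_comm]; refine sum_eq_zero fun b _ => ?_
  rw [sum_comm]; refine sum_eq_zero fun a' _ => ?_
  rw [sum_comm]; refine sum_eq_zero fun b' _ => ?_
  have := congrArg ((φ a' * v b' * (φ' a * v' b)) • ·) (h a' b' a b)
  simp only [smul_sum, smul_zero, smul_smul] at this
  refine Eq.trans (sum_congr rfl fun g _ => ?_) this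
  congr 1; ring

/-- `∑_{c ∈ C} A c • c` kills the homology of `S τ`. -/
theorem Annihilates.homology (h : Annihilates R S) {τ : G} (hτ : τ * τ = 1) (φ v : d → ZMod 2)
    (w : e → ZMod 2) (hw : S τ *ᵥ w = w) :
    ∑ g ∈ ({g | τ * g = g * τ} : Finset G), coef R φ v g • S g *ᵥ w ∈
      LinearMap.range (LinearMap.id + (S τ).mulVecLin) := by
  have hinv : τ⁻¹ = τ := inv_eq_of_mul_eq_one_right hτ
  set φ' := φ ᵥ* R τ
  set v' := R τ *ᵥ v
  have hc : ∀ g, coef R φ' v' g = coef R φ v (τ * g * τ) := by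
    intro g
    simp only [coef, φ', v', _root_.mul_inv_rev, hinv, map_mul, ← mulVec_mulVec, dotProduct_mulVec]
  have hsum := congrArg (· *ᵥ w) (h.sum_coef_mul φ v φ' v')
  simp only [sum_mulVec, zero_mulVec, smul_mulVec] at hsum
  rw [← sum_filter_add_sum_filter_not univ fun g => τ * g = g * τ] at hsum
  have hC : ∑ g ∈ ({g | τ * g = g * τ} : Finset G),
      (coef R φ v g * coef R φ' v' g) • S g *ᵥ w =
      ∑ g ∈ ({g | τ * g = g * τ} : Finset G), coef R φ v g • S g *ᵥ w := by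
    refine sum_congr rfl fun g hg => ?_
    rw [mem_filter] at hg
    rw [hc, hg.2, mul_assoc, hτ, mul_one]
    congr 1
    generalize coef R φ v g = x
    revert x; decide
  rw [hC] at hsum
  rw [eq_neg_of_add_eq_zero_left hsum]
  refine neg_mem (sum_pairs_mem _ (fun g => τ * g * τ) _ _ ?_ ?_ ?_ ?_)
  · intro g hg
    simp only [mem_filter, mem_univ, true_and] at hg ⊢
    intro h'
    apply hg
    simpa [mul_assoc, hτ, ← mul_assoc τ τ] using h'.symm
  · intro g hg h'
    simp only [mem_filter, mem_univ, true_and] at hg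
    exact hg (by conv_rhs => rw [← h', mul_assoc, hτ, mul_one])
  · intro g _; simp [mul_assoc, hτ, ← mul_assoc τ τ]
  · intro g _
    rw [mulVecLin_apply, mulVec_smul, hc, hc]
    congr 1
    · rw [mul_comm]; simp [mul_assoc, hτ, ← mul_assoc τ τ]
    · rw [map_mul, map_mul, ← mulVec_mulVec w _ (S τ), hw, mulVec_mulVec]

/-- A `C`-map out of `R` lies in the span of the elements `∑_{c ∈ C} coef c • c` applied to its
values, for any subgroup `C`, as soon as the identity of `R` is a trace over the whole group. -/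
theorem exists_coef_formula {θ : Matrix d d (ZMod 2)} (hθ : ∑ g, R g * θ * R g⁻¹ = 1)
    (C : Subgroup G) [DecidablePred (· ∈ C)] :
    ∃ θ' : Matrix d d (ZMod 2), ∀ {L : Type*} [AddCommGroup L] [Module (ZMod 2) L]
      (σ : C →* Module.End (ZMod 2) L) (f : (d → ZMod 2) →ₗ[ZMod 2] L),
      (∀ (c : C) x, f (R c *ᵥ x) = σ c (f x)) →
      ∀ x, f x = ∑ i, ∑ c : C, coef R (θ' i) x c • σ c (f (Pi.single i 1)) := by
  obtain ⟨T, hT, -⟩ := C.exists_isComplement_right 1
  have hfin : Fintype T := Fintype.ofFinite T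
  set θ' : Matrix d d (ZMod 2) := ∑ t : T, R t * θ * R (t : G)⁻¹
  have hθ' : ∑ c : C, R c * θ' * R (c : G)⁻¹ = 1 := by
    rw [← hθ, ← (Equiv.ofBijective _ hT).sum_comp, Fintype.sum_prod_type]
    refine sum_congr rfl fun c _ => ?_
    simp only [θ', Matrix.mul_sum, Matrix.sum_mul]
    refine sum_congr rfl fun t _ => ?_
    show _ = R ((c : G) * t) * θ * R ((c : G) * t)⁻¹
    simp only [map_mul, _root_.mul_inv_rev, mul_assoc]
  refine ⟨θ', fun σ f hf x => ?_⟩
  have h1 := congrArg (fun M : Matrix d d (ZMod 2) => f (M *ᵥ x)) hθ'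
  simp only [sum_mulVec, one_mulVec, map_sum, ← mulVec_mulVec, hf] at h1
  rw [← h1, sum_comm (γ := d)]
  refine sum_congr rfl fun c _ => ?_
  conv_lhs => rw [pi_eq_sum_univ (θ' *ᵥ (R (c : G)⁻¹ *ᵥ x))]
  rw [map_sum, map_sum]
  refine sum_congr rfl fun i _ => ?_
  rw [map_smul, map_smul]
  congr 2
  congr 1
  ext j; simp [Pi.single_apply, eq_comm]

/-- A nonzero `C`-map out of `R` is detected by an element `∑_{c ∈ C} coef c • c`. -/
theorem exists_coef_ne_zero {θ : Matrix d d (ZMod 2)} (hθ : ∑ g, R g * θ * R g⁻¹ = 1)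
    (C : Subgroup G) [DecidablePred (· ∈ C)] {L : Type*} [AddCommGroup L] [Module (ZMod 2) L]
    (σ : C →* Module.End (ZMod 2) L) (f : (d → ZMod 2) →ₗ[ZMod 2] L)
    (hf : ∀ (c : C) x, f (R c *ᵥ x) = σ c (f x)) (hf0 : f ≠ 0) :
    ∃ φ v : d → ZMod 2, ∑ c : C, coef R φ v c • σ c ≠ 0 := by
  obtain ⟨θ', h'⟩ := exists_coef_formula hθ C
  by_contra hcon
  push Not at hcon
  refine hf0 (LinearMap.ext fun x => ?_)
  rw [h' σ f hf x, LinearMap.zero_apply]
  refine sum_eq_zero fun i _ => ?_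
  simpa using LinearMap.congr_fun (hcon (θ' i) x) (f (Pi.single i 1))

/-- The criterion: a nonzero `C`-equivariant image of `R` is not a `C`-subquotient of the
homology of `S τ`, where `C` is the centraliser of the involution `τ`. -/
theorem Annihilates.not_subquotient (h : Annihilates R S)
    {θ : Matrix d d (ZMod 2)} (hθ : ∑ g, R g * θ * R g⁻¹ = 1)
    {τ : G} (hτ : τ * τ = 1) (C : Subgroup G) [DecidablePred (· ∈ C)]
    (hC : ∀ g, g ∈ C ↔ τ * g = g * τ)
    {L : Type*} [AddCommGroup L] [Module (ZMod 2) L] (σ : C →* Module.End (ZMod 2) L)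
    (f : (d → ZMod 2) →ₗ[ZMod 2] L) (hf : ∀ (c : C) x, f (R c *ᵥ x) = σ c (f x)) (hf0 : f ≠ 0)
    (U : Submodule (ZMod 2) (e → ZMod 2)) (hfix : ∀ w ∈ U, S τ *ᵥ w = w)
    (hU : ∀ (c : C), ∀ w ∈ U, S c *ᵥ w ∈ U)
    (p : U →ₗ[ZMod 2] L) (hp : Function.Surjective p)
    (hp' : ∀ (c : C) (w : U), p ⟨S c *ᵥ w, hU c w w.2⟩ = σ c (p w))
    (hker : ∀ w : U, (w : e → ZMod 2) ∈ LinearMap.range (LinearMap.id + (S τ).mulVecLin) →
      p w = 0) : False := by
  obtain ⟨φ, v, hne⟩ := exists_coef_ne_zero hθ C σ f hf hf0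
  refine hne (LinearMap.ext fun l => ?_)
  obtain ⟨w, rfl⟩ := hp l
  have h1 := h.homology hτ φ v w (hfix w w.2)
  have h2 : ∑ g ∈ ({g | τ * g = g * τ} : Finset G), coef R φ v g • S g *ᵥ (w : e → ZMod 2) =
      ((∑ c : C, coef R φ v c • (⟨S c *ᵥ w, hU c w w.2⟩ : U) : U) : e → ZMod 2) := by
    rw [Submodule.coe_sum]
    exact Finset.sum_subtype _ (fun g => by simp [hC]) _
  rw [h2] at h1
  have h3 := hker _ h1
  rw [map_sum] at h3
  simp only [map_smul, hp'] at h3
  simpa using h3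

end Vale.Agent.P197.Criterion
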