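import Vale.Agent.P197.Staircase
import Vale.Agent.P197.Lattice
import Vale.Agent.P197.Criterion.Core

/-!
# The hypotheses of the criterion hold for staircases

A vanishing Kronecker coefficient gives `Annihilates`, and the staircase character gives a
trace-one decomposition of the identity modulo `2`.
-/

open Finset Equiv Matrix
open scoped Kronecker

namespace Vale.Agent.P197.Criterion

open SymChar

variable {n : ℕ}

/-- Reduction of an integral matrix representation modulo `2`. -/
def red {d : Type*} [Fintype d] [DecidableEq d] {G : Type*} [Group G]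
    (S : G →* Matrix d d ℤ) : G →* Matrix d d (ZMod 2) :=
  ((Int.castRingHom (ZMod 2)).mapMatrix).toMonoidHom.comp S

lemma trace_map_int {ι : Type*} [Fintype ι] (M : Matrix ι ι ℤ) :
    (M.map (Int.castRingHom ℂ)).trace = (M.trace : ℂ) := by
  simp [Matrix.trace]

lemma idempotent_eq_zero {ι : Type*} [Fintype ι] [DecidableEq ι] {P : Matrix ι ι ℂ}
    (h : P * P = P) (ht : P.trace = 0) : P = 0 := by
  have hp : IsIdempotentElem (Matrix.toLin' P) := by
    show Matrix.toLinAlgEquiv' P * Matrix.toLinAlgEquiv' P = Matrix.toLinAlgEquiv' P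
    rw [← map_mul, h]
  have h1 := (LinearMap.IsProj.mk (m := LinearMap.range (Matrix.toLin' P))
    (f := Matrix.toLin' P) (fun x => LinearMap.mem_range_self _ x) (by
      rintro x ⟨y, rfl⟩
      exact LinearMap.congr_fun hp y)).trace
  rw [Matrix.trace_toLin'_eq, ht] at h1
  have h2 : LinearMap.range (Matrix.toLin' P) = ⊥ :=
    Submodule.finrank_eq_zero.mp (by exact_mod_cast h1.symm)
  exact Matrix.toLin'.map_eq_zero_iff.mp (LinearMap.range_eq_bot.mp h2)

/-- The representation `g ↦ (R g⁻¹)ᵀ ⊗ (R g⁻¹)ᵀ ⊗ S g` over `ℂ`. -/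
def triple {d e : ℕ} (R : Perm (Fin n) →* Matrix (Fin d) (Fin d) ℤ)
    (S : Perm (Fin n) →* Matrix (Fin e) (Fin e) ℤ) (g : Perm (Fin n)) :
    Matrix ((Fin d × Fin d) × Fin e) ((Fin d × Fin d) × Fin e) ℂ :=
  ((((R g⁻¹)ᵀ).map (Int.castRingHom ℂ)) ⊗ₖ (((R g⁻¹)ᵀ).map (Int.castRingHom ℂ))) ⊗ₖ
    ((S g).map (Int.castRingHom ℂ))

lemma triple_mul {d e : ℕ} (R : Perm (Fin n) →* Matrix (Fin d) (Fin d) ℤ)
    (S : Perm (Fin n) →* Matrix (Fin e) (Fin e) ℤ) (g h : Perm (Fin n)) :
    triple R S (g * h) = triple R S g * triple R S h := by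
  simp only [triple, ← Matrix.mul_kronecker_mul, _root_.mul_inv_rev, map_mul,
    Matrix.transpose_mul, Matrix.map_mul]

/-- A vanishing Kronecker coefficient gives the annihilation hypothesis. -/
theorem annihilates_of_kronecker_eq_zero {r v : n.Partition} (h : kronecker r r v = 0)
    {d e : ℕ} (R : Perm (Fin n) →* Matrix (Fin d) (Fin d) ℤ)
    (hR : ∀ g, (R g).trace = chi (beta r) g)
    (S : Perm (Fin n) →* Matrix (Fin e) (Fin e) ℤ) (hS : ∀ g, (S g).trace = chi (beta v) g) :
    Annihilates (red R) (red S) := by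
  set N : ℂ := (n.factorial : ℂ)
  have hN : N ≠ 0 := by simpa [N] using Nat.factorial_ne_zero n
  set P := ∑ g, triple R S g
  have hP : P * P = N • P := by
    have h1 : ∀ g, triple R S g * P = P := by
      intro g
      simp only [P, Matrix.mul_sum, ← triple_mul]
      exact Equiv.sum_comp (Equiv.mulLeft g) (triple R S)
    conv_lhs => arg 1; simp only [P]
    rw [Matrix.sum_mul, sum_congr rfl fun g _ => h1 g, sum_const, card_univ, Fintype.card_perm,
      Fintype.card_fin, ← Nat.cast_smul_eq_nsmul ℂ]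
  have htr : P.trace = 0 := by
    have hk := kronecker_eq r r v
    rw [h, Nat.cast_zero, zero_mul] at hk
    rw [hk, Matrix.trace_sum]
    refine sum_congr rfl fun g _ => ?_
    simp only [triple, Matrix.trace_kronecker, trace_map_int,
      Matrix.trace_transpose, hR, hS, chi_inv]
    push_cast
    rfl
  have hP0 : P = 0 := by
    have := idempotent_eq_zero (P := N⁻¹ • P)
      (by rw [smul_mul_smul_comm, hP, smul_smul]; congr 1; field_simp)
      (by rw [Matrix.trace_smul, htr, smul_zero])
    exact (smul_eq_zero.mp this).resolve_left (inv_ne_zero hN)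
  intro a b a' b'
  ext i j
  have h1 : P ((b, b'), i) ((a, a'), j) = 0 := by rw [hP0]; rfl
  simp only [P, triple, Matrix.sum_apply, Matrix.kronecker_apply, Matrix.map_apply,
    Matrix.transpose_apply, ← map_mul, ← map_sum] at h1
  have h2 : ∑ g, R g⁻¹ a b * R g⁻¹ a' b' * S g i j = 0 := Int.cast_eq_zero.mp h1
  simpa [red, Matrix.sum_apply] using congrArg (Int.castRingHom (ZMod 2)) h2

/-- The staircase degree is divisible by the full power of two in `n!`. -/
lemma card_sylow_dvd {m : ℕ} {r : n.Partition} (hr : ∀ i, row r i = m - i) (hm : m ≤ n)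
    {d : ℕ} (R : Perm (Fin n) →* Matrix (Fin d) (Fin d) ℤ)
    (hR : ∀ g, (R g).trace = chi (beta r) g) (Q : Sylow 2 (Perm (Fin n))) :
    (Nat.card Q : ℤ) ∣ d := by
  classical
  let ρ : Representation ℂ Q (Fin d → ℂ) :=
    (Matrix.toLinAlgEquiv').toAlgHom.toRingHom.toMonoidHom.comp
      (((Int.castRingHom ℂ).mapMatrix).toMonoidHom.comp (R.comp Q.toSubgroup.subtype))
  have hne : (Nat.card Q : ℂ) ≠ 0 := by simp
  have : Invertible (Nat.card Q : ℂ) := invertibleOfNonzero hne
  have h := Representation.card_inv_mul_sum_char_eq_finrank ρ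
  have hchar : ∀ u : Q.toSubgroup, ρ.character u = ((R (u : Perm (Fin n))).trace : ℂ) := by
    intro u
    show LinearMap.trace ℂ _ (Matrix.toLin' ((Int.castRingHom ℂ).mapMatrix (R u))) = _
    rw [Matrix.trace_toLin'_eq, RingHom.mapMatrix_apply, trace_map_int]
  have hsum : ∑ u : Q.toSubgroup, ρ.character u = ρ.character 1 := by
    refine sum_eq_single 1 (fun u _ hu => ?_) (by simp)
    rw [hchar, hR, chi_staircase_eq_zero hr hm _ ?_, Int.cast_zero]
    obtain ⟨k, hk⟩ := (IsPGroup.iff_orderOf.mp Q.isPGroup') u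
    rw [Subgroup.orderOf_coe, hk, Nat.even_pow]
    refine ⟨even_two, fun h0 => hu ?_⟩
    rw [h0, pow_zero, orderOf_eq_one_iff] at hk
    exact hk
  rw [hsum] at h
  rw [hchar, OneMemClass.coe_one, map_one, Matrix.trace_one, Fintype.card_fin] at h
  refine ⟨Module.finrank ℂ (Representation.invariants ρ), ?_⟩
  have h2 : ((d : ℤ) : ℂ) =
      ((Nat.card Q : ℤ) * Module.finrank ℂ (Representation.invariants ρ) : ℤ) := by
    push_cast
    rw [← h]
    field_simp
    push_cast
    rfl
  exact_mod_cast h2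

/-- Modulo `2`, the identity of the staircase representation is a trace. -/
theorem exists_trace_eq_one {m : ℕ} {r : n.Partition} (hr : ∀ i, row r i = m - i) (hm : m ≤ n)
    {d : ℕ} (R : Perm (Fin n) →* Matrix (Fin d) (Fin d) ℤ)
    (hR : ∀ g, (R g).trace = chi (beta r) g) :
    ∃ θ : Matrix (Fin d) (Fin d) (ZMod 2), ∑ g, red R g * θ * red R g⁻¹ = 1 := by
  classical
  have hd : 0 < d := by
    rcases Nat.eq_zero_or_pos d with rfl | h
    · have h1 := hR 1
      have h2 := chi_one_pos n (α := Fin n) (beta r) (isBeta_beta r) (Fintype.card_fin n)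
      simp only [Matrix.trace, univ_eq_empty, sum_empty] at h1
      omega
    · exact h
  let i₀ : Fin d := ⟨0, hd⟩
  set M : Matrix (Fin d) (Fin d) ℤ := ∑ g, R g * Matrix.single i₀ i₀ 1 * R g⁻¹
  have hcomm : ∀ h, R h * M = M * R h := by
    intro h
    simp only [M, Matrix.mul_sum, Matrix.sum_mul]
    rw [← Equiv.sum_comp (Equiv.mulLeft h) (fun g => R g * Matrix.single i₀ i₀ 1 * R g⁻¹ * R h)]
    refine sum_congr rfl fun g _ => ?_
    simp only [Equiv.coe_mulLeft, _root_.mul_inv_rev, map_mul, mul_assoc]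
    rw [← map_mul, inv_mul_cancel, map_one, mul_one]
  let ρ : Representation ℂ (Perm (Fin n)) (Fin d → ℂ) :=
    (Matrix.toLinAlgEquiv').toAlgHom.toRingHom.toMonoidHom.comp
      (((Int.castRingHom ℂ).mapMatrix).toMonoidHom.comp R)
  have hchar : ρ.character = chiP r := by
    funext g
    show LinearMap.trace ℂ _ (Matrix.toLin' ((Int.castRingHom ℂ).mapMatrix (R g))) = _
    rw [Matrix.trace_toLin'_eq, RingHom.mapMatrix_apply, trace_map_int, hR]
    rfl
  have hne : (Nat.card (Perm (Fin n)) : ℂ) ≠ 0 := by simp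
  have : Invertible (Nat.card (Perm (Fin n)) : ℂ) := invertibleOfNonzero hne
  have hrank : Module.finrank ℂ (Representation.IntertwiningMap ρ ρ) = 1 := by
    have h1 := Representation.card_inv_mul_sum_char_mul_char_eq_finrank ρ ρ
    rw [hchar, irr_inner (chiP_mem_irrSet r) (chiP_mem_irrSet r), if_pos rfl,
      ← Nat.card_eq_fintype_card, inv_mul_cancel₀ hne] at h1
    exact_mod_cast h1.symm
  let f : Representation.IntertwiningMap ρ ρ :=
    { toLinearMap := Matrix.toLin' ((Int.castRingHom ℂ).mapMatrix M)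
      isIntertwining' := fun g => by
        show Matrix.toLin' _ ∘ₗ Matrix.toLin' _ = Matrix.toLin' _ ∘ₗ Matrix.toLin' _
        rw [← Matrix.toLin'_mul, ← Matrix.toLin'_mul]
        simp only [RingHom.toMonoidHom_eq_coe, MonoidHom.coe_comp, MonoidHom.coe_coe,
          Function.comp_apply, ← map_mul, hcomm] }
  let one : Representation.IntertwiningMap ρ ρ :=
    { toLinearMap := LinearMap.id, isIntertwining' := fun g => rfl }
  obtain ⟨c, hc⟩ := (finrank_eq_one_iff_of_nonzero' one (fun h0 => by
    have := congrArg (fun F => F.toLinearMap (Pi.single i₀ 1) i₀) h0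
    simp [one] at this)).mp hrank f
  have hM : (Int.castRingHom ℂ).mapMatrix M = c • 1 := by
    have := congrArg (fun F => F.toLinearMap) hc
    apply Matrix.toLin'.injective
    rw [map_smul, Matrix.toLin'_one]
    exact this.symm
  have hM' : M = M i₀ i₀ • (1 : Matrix (Fin d) (Fin d) ℤ) := by
    have hc' : c = (M i₀ i₀ : ℂ) := by
      have := congrFun (congrFun hM i₀) i₀
      simpa using this.symm
    apply Matrix.map_injective (f := Int.castRingHom ℂ) Int.cast_injective
    dsimp only
    rw [← RingHom.mapMatrix_apply, hM, hc']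
    ext i j
    simp [Matrix.one_apply, Matrix.intCast_apply]
  have htr : M i₀ i₀ * d = n.factorial := by
    have h1 : M.trace = n.factorial := by
      simp only [M, Matrix.trace_sum]
      have h2 : ∀ g, (R g * Matrix.single i₀ i₀ 1 * R g⁻¹).trace = 1 := by
        intro g
        rw [Matrix.trace_mul_cycle, ← map_mul, inv_mul_cancel, map_one, one_mul,
          Matrix.trace_single_eq_same]
      rw [sum_congr rfl fun g _ => h2 g]
      simp [Fintype.card_perm]
    rw [hM', Matrix.trace_smul, Matrix.trace_one] at h1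
    simpa using h1
  obtain ⟨Q⟩ := (Sylow.nonempty : Nonempty (Sylow 2 (Perm (Fin n))))
  obtain ⟨k, hk⟩ := card_sylow_dvd hr hm R hR Q
  have hodd : Odd (M i₀ i₀) := by
    have hi : (n.factorial : ℤ) = (Nat.card Q : ℤ) * Q.toSubgroup.index := by
      have := Q.toSubgroup.card_mul_index
      rw [Nat.card_eq_fintype_card (α := Perm (Fin n)), Fintype.card_perm, Fintype.card_fin]
        at this
      exact_mod_cast this.symm
    have hQ : (Nat.card Q : ℤ) ≠ 0 := by simp
    have heq : M i₀ i₀ * k = Q.toSubgroup.index := by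
      apply mul_left_cancel₀ hQ
      rw [← hi, ← htr, hk]
      ring
    have h2 := Q.not_dvd_index
    have : Odd (M i₀ i₀ * k) := by
      rw [heq, Int.odd_coe_nat, Nat.odd_iff]
      omega
    exact (Int.odd_mul.mp this).1
  refine ⟨(Matrix.single i₀ i₀ (1 : ℤ)).map (Int.castRingHom (ZMod 2)), ?_⟩
  have h3 := congrArg (Int.castRingHom (ZMod 2)).mapMatrix hM'
  rw [← RingHom.mapMatrix_apply]
  simp only [M, map_sum, map_mul] at h3
  refine Eq.trans h3 ?_
  have h4 : ((M i₀ i₀ : ℤ) : ZMod 2) = 1 := by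
    obtain ⟨q, hq⟩ := hodd
    rw [hq]
    push_cast
    rw [show (2 : ZMod 2) = 0 from rfl, zero_mul, zero_add]
  ext i j
  simp only [M] at h4
  simp [Matrix.one_apply, Matrix.intCast_apply, h4]

end Vale.Agent.P197.Criterion
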