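import Vale.Agent.P197.Criterion.Forced

/-!
# The criterion through one constituent of the 2-quotient

Let `c` be a constituent of `Ind (χ^α ⊗ χ^β)`, where either factor may be twisted by the sign.  A
nonzero map from the staircase module modulo `2` to the reduction of `S^c ⊗ S^core`, equivariant
for the centraliser of the pairing involution, gives `g(ρ, ρ, ν) > 0`.
-/

open Finset Equiv Matrix Representation
open scoped Kronecker

namespace Vale.Agent.P197.Criterion

open SymChar Littlewood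

section Link

variable {H : Type*} [Group H]

/-- An idempotent killed by one integral form is killed by every form with the same reduction. -/
lemma lift_eq_zero_of_red_eq {N : ℕ} (hN : 0 < N) {ι : Type*} [Fintype ι] [DecidableEq ι]
    {W W' : H →* Matrix ι ι ℤ} (hred : red W = red W') {E : MonoidAlgebra (ZMod (2 ^ N)) H}
    (hE : IsIdempotentElem E)
    (h0 : MonoidAlgebra.lift (ZMod (2 ^ N)) (Matrix ι ι (ZMod (2 ^ N))) H (redPow N W) E = 0) :
    MonoidAlgebra.lift (ZMod (2 ^ N)) (Matrix ι ι (ZMod (2 ^ N))) H (redPow N W') E = 0 := by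
  classical
  set L := fun V : H →* Matrix ι ι ℤ =>
    MonoidAlgebra.lift (ZMod (2 ^ N)) (Matrix ι ι (ZMod (2 ^ N))) H (redPow N V)
  have hmap : ∀ V (y : MonoidAlgebra (ZMod (2 ^ N)) H), (red2 hN).mapMatrix (L V y) =
      MonoidAlgebra.lift (ZMod 2) (Matrix ι ι (ZMod 2)) H (red V)
        (MonoidAlgebra.mapRingHom H (red2 hN) y) := by
    intro V y
    induction y using MonoidAlgebra.induction_linear with
    | zero => simp
    | add a b ha hb => rw [map_add, map_add, map_add, map_add, ha, hb]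
    | single g x =>
      ext i j
      suffices h2 : red2 hN (x * ((V g i j : ℤ) : ZMod (2 ^ N))) = red2 hN x * (V g i j : ZMod 2) by
        simpa [L, redPow, red, MonoidAlgebra.lift_single] using h2
      rw [map_mul, map_intCast]
  have h1 : (red2 hN).mapMatrix (L W' E) = 0 := by
    rw [hmap, ← hred, ← hmap]
    show (red2 hN).mapMatrix (L W E) = 0
    rw [show L W E = 0 from h0, map_zero]
  have : NeZero (2 ^ N) := ⟨by positivity⟩
  have hev : ∀ i j, ∃ y : ZMod (2 ^ N), L W' E i j = 2 * y := fun i j => by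
    have h2 : red2 hN (L W' E i j) = 0 := congrFun (congrFun h1 i) j
    obtain ⟨q, hq⟩ : 2 ∣ (L W' E i j).val := by
      rw [← ZMod.natCast_eq_zero_iff, ← map_natCast (red2 hN), ZMod.natCast_zmod_val, h2]
    refine ⟨(q : ZMod (2 ^ N)), ?_⟩
    rw [← ZMod.natCast_zmod_val (L W' E i j), hq]
    push_cast
    rfl
  choose y hy using hev
  have h3 : L W' E = (2 : ZMod (2 ^ N)) • Matrix.of y := by
    ext i j
    simp [hy i j]
  have h4 : L W' E ^ (N - 1 + 1) = L W' E := (hE.map (L W')).pow_succ_eq _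
  have h5 : L W' E ^ N = L W' E := by rwa [show N - 1 + 1 = N by omega] at h4
  show L W' E = 0
  rw [← h5, h3, smul_pow, show (2 : ZMod (2 ^ N)) ^ N = ((2 ^ N : ℕ) : ZMod (2 ^ N)) by
    push_cast; rfl, ZMod.natCast_self, zero_smul]

lemma trace_lift_redPow [Fintype H] {N : ℕ} {μ : Type*} [Fintype μ] [DecidableEq μ]
    (U : H →* Matrix μ μ ℤ) (E : MonoidAlgebra (ZMod (2 ^ N)) H) :
    (MonoidAlgebra.lift (ZMod (2 ^ N)) (Matrix μ μ (ZMod (2 ^ N))) H (redPow N U) E).trace =
      ∑ h, E.coeff h * ((U h).trace : ZMod (2 ^ N)) := by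
  rw [lift_apply_sum, Matrix.trace_sum]
  simp [redPow, Matrix.trace, Finset.mul_sum]

/-- An idempotent killed by `W` is killed by each constituent of the character of `W`. -/
lemma lift_eq_zero_of_trace_eq [Fintype H] {N : ℕ} (hN : 0 < N) {ι : Type*} [Fintype ι]
    [DecidableEq ι] (W : H →* Matrix ι ι ℤ) {ι₁ : Type*} [Fintype ι₁] [DecidableEq ι₁]
    (W₁ : H →* Matrix ι₁ ι₁ ℤ) {J : Type*} [Fintype J] {κ : J → Type*} [∀ j, Fintype (κ j)]
    [∀ j, DecidableEq (κ j)] (V : ∀ j, H →* Matrix (κ j) (κ j) ℤ) {a₁ : ℕ} (ha₁ : a₁ ≠ 0)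
    (a : J → ℕ)
    (htr : ∀ h, (W h).trace = a₁ * (W₁ h).trace + ∑ j, (a j : ℤ) * (V j h).trace)
    (hcard : Fintype.card ι < 2 ^ N) {E : MonoidAlgebra (ZMod (2 ^ N)) H}
    (hE : IsIdempotentElem E)
    (h0 : MonoidAlgebra.lift (ZMod (2 ^ N)) (Matrix ι ι (ZMod (2 ^ N))) H (redPow N W) E = 0) :
    MonoidAlgebra.lift (ZMod (2 ^ N)) (Matrix ι₁ ι₁ (ZMod (2 ^ N))) H (redPow N W₁) E = 0 := by
  set M₁ := MonoidAlgebra.lift (ZMod (2 ^ N)) (Matrix ι₁ ι₁ (ZMod (2 ^ N))) H (redPow N W₁) E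
  let M := fun j =>
    MonoidAlgebra.lift (ZMod (2 ^ N)) (Matrix (κ j) (κ j) (ZMod (2 ^ N))) H (redPow N (V j)) E
  obtain ⟨r₁, hr₁, htr₁, hz₁⟩ := exists_trace_idempotent hN (hE.map
    (MonoidAlgebra.lift (ZMod (2 ^ N)) (Matrix ι₁ ι₁ (ZMod (2 ^ N))) H (redPow N W₁))).eq
  choose r hr htr' _ using fun j => exists_trace_idempotent hN (hE.map
    (MonoidAlgebra.lift (ZMod (2 ^ N)) (Matrix (κ j) (κ j) (ZMod (2 ^ N))) H (redPow N (V j)))).eq
  have hdim := htr 1
  simp only [map_one, Matrix.trace_one] at hdim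
  have hdim' : Fintype.card ι = a₁ * Fintype.card ι₁ + ∑ j, a j * Fintype.card (κ j) := by
    exact_mod_cast hdim
  have hsum : (((a₁ * r₁ + ∑ j, a j * r j : ℕ)) : ZMod (2 ^ N)) = 0 := by
    push_cast
    rw [← htr₁, trace_lift_redPow]
    simp only [← htr', trace_lift_redPow]
    have h1 := congrArg Matrix.trace h0
    rw [trace_lift_redPow, Matrix.trace_zero] at h1
    simp only [htr, Int.cast_add, Int.cast_mul, Int.cast_sum, Int.cast_natCast, mul_add,
      sum_add_distrib, mul_sum] at h1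
    rw [sum_comm (γ := H)] at h1
    rw [mul_sum]
    simp only [mul_sum]
    refine Eq.trans ?_ h1
    congr 1
    · exact sum_congr rfl fun h _ => by ring
    · exact sum_congr rfl fun j _ => sum_congr rfl fun h _ => by ring
  refine hz₁ ?_
  have hle : a₁ * r₁ + ∑ j, a j * r j ≤ Fintype.card ι := by
    rw [hdim']
    exact Nat.add_le_add (Nat.mul_le_mul_left _ hr₁)
      (sum_le_sum fun j _ => Nat.mul_le_mul_left _ (hr j))
  have := Nat.eq_zero_of_dvd_of_lt ((ZMod.natCast_eq_zero_iff _ _).mp hsum) (by omega)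
  have h2 : a₁ * r₁ = 0 := by omega
  exact (Nat.mul_eq_zero.mp h2).resolve_left ha₁

end Link

/-- The character of an integral representation of `S_k` is a combination of the `chi (beta q)`
with natural coefficients, nonzero at the constituents. -/
theorem exists_decomposition {k : ℕ} {ι : Type} [Fintype ι] [DecidableEq ι]
    (S : Perm (Fin k) →* Matrix ι ι ℤ) :
    ∃ a : k.Partition → ℕ, (∀ g, (S g).trace = ∑ q, (a q : ℤ) * chi (beta q) g) ∧
      ∀ q, ∑ g, chi (beta q) g * (S g).trace ≠ 0 → a q ≠ 0 := by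
  classical
  let ρ : Representation ℂ (Perm (Fin k)) (ι → ℂ) :=
    (Matrix.toLinAlgEquiv').toAlgHom.toRingHom.toMonoidHom.comp
      (((Int.castRingHom ℂ).mapMatrix).toMonoidHom.comp S)
  have hchar : ∀ g, ρ.character g = ((S g).trace : ℂ) := by
    intro g
    show LinearMap.trace ℂ _ (Matrix.toLin' ((Int.castRingHom ℂ).mapMatrix (S g))) = _
    rw [Matrix.trace_toLin'_eq, RingHom.mapMatrix_apply, trace_map_int]
  obtain ⟨b, hb⟩ := (Submodule.mem_span_range_iff_exists_fun ℤ).mp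
    (Submodule.span_mono (fun χ hχ => exists_chiP_eq hχ)
      (character_mem_span _ ρ rfl) : ρ.character ∈ Submodule.span ℤ (Set.range chiP))
  have hb' : ∀ g, (S g).trace = ∑ q, b q * chi (beta q) g := fun g => by
    have h := congrFun hb g
    simp only [hchar, Finset.sum_apply, Pi.smul_apply, chiP, chiC, zsmul_eq_mul, Pi.mul_apply,
      Pi.intCast_apply] at h
    exact_mod_cast h.symm
  have hinner : ∀ q, ∑ g, chi (beta q) g * (S g).trace = k.factorial * b q := by
    intro q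
    simp only [hb', mul_sum]
    rw [sum_comm, Finset.sum_eq_single q]
    · have h := sum_chi_mul_chi (α := Fin k) (a := beta q) (b := beta q)
        (by simpa using isBeta_beta q) (by simpa using isBeta_beta q)
      rw [if_pos rfl] at h
      rw [sum_congr rfl fun g _ => mul_left_comm (chi (beta q) g) (b q) (chi (beta q) g), ← mul_sum,
        h]
      simp [mul_comm]
    · intro p _ hp
      have h := sum_chi_mul_chi (α := Fin k) (a := beta q) (b := beta p)
        (by simpa using isBeta_beta q) (by simpa using isBeta_beta p)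
      rw [if_neg fun h => hp (beta_injective h.symm)] at h
      rw [sum_congr rfl fun g _ => mul_left_comm (chi (beta q) g) (b p) (chi (beta p) g), ← mul_sum,
        h, mul_zero]
    · simp
  have hne : (Nat.card (Perm (Fin k)) : ℂ) ≠ 0 := by simp
  have : Invertible (Nat.card (Perm (Fin k)) : ℂ) := invertibleOfNonzero hne
  have hnn : ∀ q, 0 ≤ b q := by
    intro q
    have h := card_inv_mul_sum_char_mul_char_eq_finrank (spechtRep q) ρ
    simp only [spechtRep_character, hchar, chiP, chiC, chi_inv] at h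
    have h2 : (∑ g, ((S g).trace : ℂ) * (chi (beta q) g : ℂ)) = ((k.factorial * b q : ℤ) : ℂ) := by
      rw [← hinner q]; push_cast; exact sum_congr rfl fun g _ => mul_comm _ _
    rw [h2, Nat.card_eq_fintype_card, Fintype.card_perm, Fintype.card_fin, Int.cast_mul,
      Int.cast_natCast, ← mul_assoc,
      inv_mul_cancel₀ (by exact_mod_cast Nat.factorial_ne_zero k), one_mul] at h
    have h3 : b q = (Module.finrank ℂ (IntertwiningMap (spechtRep q) ρ) : ℤ) := by exact_mod_cast h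
    omega
  refine ⟨fun q => (b q).toNat, fun g => ?_, fun q hq h0 => hq ?_⟩
  · rw [hb']
    exact sum_congr rfl fun q _ => by rw [Int.toNat_of_nonneg (hnn q)]
  · simp only at h0
    rw [hinner, show b q = 0 by have := hnn q; omega, mul_zero]

variable {n : ℕ}

/-- The twist of an integral form by the sign. -/
def signTwist {k : ℕ} {ι : Type*} [Fintype ι] [DecidableEq ι]
    (S : Perm (Fin k) →* Matrix ι ι ℤ) : Perm (Fin k) →* Matrix ι ι ℤ where
  toFun g := (Perm.sign g : ℤ) • S g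
  map_one' := by simp
  map_mul' g h := by rw [map_mul, map_mul, Units.val_mul, smul_mul_smul_comm]

lemma red_signTwist {k : ℕ} {ι : Type*} [Fintype ι] [DecidableEq ι]
    (S : Perm (Fin k) →* Matrix ι ι ℤ) : red (signTwist S) = red S := by
  refine MonoidHom.ext fun g => ?_
  ext i j
  rcases Int.units_eq_one_or (Perm.sign g) with h | h <;>
    simp [red, signTwist, h, ZMod.neg_eq_self_mod_two]

/-- A form for a beta set equal to a given one up to a sign twist, with the same reduction. -/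
lemma exists_twist {k d m m' : ℕ} {A : Fin m → ℤ} {A' : Fin m' → ℤ}
    (S : Perm (Fin k) →* Matrix (Fin d) (Fin d) ℤ) (hS : ∀ g, (S g).trace = chi A g)
    (h : (∀ g : Perm (Fin k), chi A' g = chi A g) ∨
      ∀ g : Perm (Fin k), chi A' g = (Perm.sign g : ℤ) * chi A g) :
    ∃ S' : Perm (Fin k) →* Matrix (Fin d) (Fin d) ℤ,
      (∀ g, (S' g).trace = chi A' g) ∧ red S' = red S := by
  rcases h with h | h
  · exact ⟨S, fun g => by rw [hS, h], rfl⟩
  · exact ⟨signTwist S, fun g => by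
      show ((Perm.sign g : ℤ) • S g).trace = _
      rw [Matrix.trace_smul, smul_eq_mul, hS, h], red_signTwist S⟩

/-- `S^c ⊗ S^core` inflated to the centraliser. -/
noncomputable def inflate {k f : ℕ} {ι κ : Type*} [Fintype ι] [DecidableEq ι] [Fintype κ]
    [DecidableEq κ] {e : (Fin k × Bool) ⊕ Fin f ≃ Fin n} (C : Subgroup (Perm (Fin n)))
    (hC : ∀ g ∈ C, pairInv e * g = g * pairInv e) (S : Perm (Fin k) →* Matrix ι ι ℤ)
    (T : Perm (Fin f) →* Matrix κ κ ℤ) : C →* Matrix (ι × κ) (ι × κ) ℤ where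
  toFun c := S (centraliserHom C hC c).1 ⊗ₖ T (centraliserHom C hC c).2
  map_one' := by simp
  map_mul' c d := by simp [Matrix.mul_kronecker_mul]

lemma red_inflate {k f : ℕ} {ι κ : Type*} [Fintype ι] [DecidableEq ι] [Fintype κ] [DecidableEq κ]
    {e : (Fin k × Bool) ⊕ Fin f ≃ Fin n} (C : Subgroup (Perm (Fin n)))
    (hC : ∀ g ∈ C, pairInv e * g = g * pairInv e) (S : Perm (Fin k) →* Matrix ι ι ℤ)
    (T : Perm (Fin f) →* Matrix κ κ ℤ) (c : C) :
    red (inflate C hC S T) c =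
      red S (centraliserHom C hC c).1 ⊗ₖ red T (centraliserHom C hC c).2 := by
  ext i j
  simp [red, inflate]

lemma red_youngRep {ka kb dA dB : ℕ} {SA SA' : Perm (Fin ka) →* Matrix (Fin dA) (Fin dA) ℤ}
    {SB SB' : Perm (Fin kb) →* Matrix (Fin dB) (Fin dB) ℤ} (hA : red SA' = red SA)
    (hB : red SB' = red SB)
    [Fintype (Perm (Fin (ka + kb)) ⧸ (youngHom ka kb).range)]
    [DecidableEq (Perm (Fin (ka + kb)) ⧸ (youngHom ka kb).range)] :
    red (induced (youngHom ka kb).range (youngRep SA' SB')) =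
      red (induced (youngHom ka kb).range (youngRep SA SB)) := by
  refine MonoidHom.ext fun g => ?_
  ext x y
  show ((indMat _ _ g x y : ℤ) : ZMod 2) = ((indMat _ _ g x y : ℤ) : ZMod 2)
  simp only [indMat, Matrix.of_apply]
  split_ifs with h
  · show (((_ ⊗ₖ _ : Matrix _ _ ℤ) x.2 y.2 : ℤ) : ZMod 2) = (((_ ⊗ₖ _ : Matrix _ _ ℤ) x.2 y.2 : ℤ) : ZMod 2)
    simp only [kroneckerMap_apply, Int.cast_mul]
    set p := (MonoidHom.ofInjective (youngHom_injective ka kb)).symm
      (⟨_, rep_mem _ h⟩ : (youngHom ka kb).range)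
    have h1 : red SA' p.1 x.2.1 y.2.1 = red SA p.1 x.2.1 y.2.1 := by rw [hA]
    have h2 : red SB' p.2 x.2.2 y.2.2 = red SB p.2 x.2.2 y.2.2 := by rw [hB]
    exact congrArg₂ (· * ·) h1 h2
  · rfl

/-- **The criterion through a constituent.**  `(A, B)` is the 2-quotient of `ν`, possibly twisted by
signs into `(A₁, B₁)`; `c` occurs in `Ind (χ^A₁ ⊗ χ^B₁)`; `Sc` and `Sg` are any forms of `c`
(possibly twisted by the sign) and of the core. -/
theorem kronecker_pos_of_constituent {m k f ka kb n₀ n₁ n₀' n₁' dc dg : ℕ} {r v : n.Partition}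
    (hr : ∀ i, row r i = m - i) (hm : m ≤ n) (e : (Fin k × Bool) ⊕ Fin f ≃ Fin n)
    (e' : Fin n₀ ⊕ Fin n₁ ≃ Fin n) {A : Fin n₀ → ℤ} {B : Fin n₁ → ℤ}
    (hjoin : join e' A B = beta v) (hA : IsBeta ka A) (hB : IsBeta kb B) (hk : ka + kb = k)
    {A₁ : Fin n₀' → ℤ} {B₁ : Fin n₁' → ℤ} (hA₁ : IsBeta ka A₁)
    (hA₁A : (∀ g : Perm (Fin ka), chi A₁ g = chi A g) ∨
      ∀ g : Perm (Fin ka), chi A₁ g = (Perm.sign g : ℤ) * chi A g)
    (hB₁B : (∀ g : Perm (Fin kb), chi B₁ g = chi B g) ∨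
      ∀ g : Perm (Fin kb), chi B₁ g = (Perm.sign g : ℤ) * chi B g)
    (c : k.Partition) (hc : ∑ σ : Perm (Fin k), chi (beta c) σ * splitSum A₁ B₁ σ ≠ 0)
    (Sc : Perm (Fin k) →* Matrix (Fin dc) (Fin dc) ℤ)
    (hSc : (∀ g, (Sc g).trace = chi (beta c) g) ∨
      ∀ g, (Sc g).trace = (Perm.sign g : ℤ) * chi (beta c) g)
    (Sg : Perm (Fin f) →* Matrix (Fin dg) (Fin dg) ℤ) (ε : ℤ)
    (hSg : ∀ g, (Sg g).trace = ε * chi (join e' (delta n₀) (delta n₁)) g)
    (C : Subgroup (Perm (Fin n))) [DecidablePred (· ∈ C)]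
    (hC : ∀ g, g ∈ C ↔ pairInv e * g = g * pairInv e)
    {d : ℕ} (R : Perm (Fin n) →* Matrix (Fin d) (Fin d) ℤ)
    (hR : ∀ g, (R g).trace = chi (beta r) g)
    (φ : (Fin d → ZMod 2) →ₗ[ZMod 2] (Fin dc × Fin dg → ZMod 2))
    (hφ : ∀ (x : C) y, φ (red R x *ᵥ y) =
      red (inflate C (fun g hg => (hC g).mp hg) Sc Sg) x *ᵥ φ y)
    (hφ0 : φ ≠ 0) : 0 < kronecker r r v := by
  classical
  subst hk
  have hC' : ∀ g ∈ C, pairInv e * g = g * pairInv e := fun g hg => (hC g).mp hg
  obtain ⟨dA, SA, hSA⟩ := exists_form A hA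
  obtain ⟨dB, SB, hSB⟩ := exists_form B hB
  obtain ⟨SA₁, hSA₁, hrA⟩ := exists_twist SA hSA hA₁A
  obtain ⟨SB₁, hSB₁, hrB⟩ := exists_twist SB hSB hB₁B
  letI : DecidableEq (Perm (Fin (ka + kb)) ⧸ (youngHom ka kb).range) := Classical.decEq _
  letI : Fintype (Perm (Fin (ka + kb)) ⧸ (youngHom ka kb).range) := Fintype.ofFinite _
  set W := quotientRep C hC' SA SB Sg
  set W' := quotientRep C hC' SA₁ SB₁ Sg
  have hWW' : red W = red W' := MonoidHom.ext fun x => by
    rw [red_quotientRep, red_quotientRep, red_youngRep hrA hrB]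
  -- a form of `c` with the reduction of `Sc`
  obtain ⟨Sc', hSc', hred⟩ : ∃ Sc' : Perm (Fin (ka + kb)) →* Matrix (Fin dc) (Fin dc) ℤ,
      (∀ g, (Sc' g).trace = chi (beta c) g) ∧ red Sc' = red Sc := by
    rcases hSc with h | h
    · exact ⟨Sc, h, rfl⟩
    · refine ⟨signTwist Sc, fun g => ?_, red_signTwist Sc⟩
      rcases Int.units_eq_one_or (Perm.sign g) with hs | hs <;> simp [signTwist, h, hs]
  obtain ⟨a, ha, hane⟩ := exists_decomposition
    (induced (youngHom ka kb).range (youngRep SA₁ SB₁))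
  have htrI : ∀ σ, (induced (youngHom ka kb).range (youngRep SA₁ SB₁) σ).trace =
      splitSum A₁ B₁ σ :=
    trace_induced_young (hA₁.total.trans (add_comm _ _)) SA₁ hSA₁ SB₁ hSB₁
  have hac : a c ≠ 0 := hane c (by simpa only [htrI] using hc)
  choose dq Sq hSq using fun q : (ka + kb).Partition => exists_intForm q
  refine kronecker_pos_of_hom' hr hm R hR (pairInv_sq e) C hC W ε (fun x => ?_)
    (inflate C hC' Sc Sg) (fun N hN hcard E hE h0 => ?_) φ hφ hφ0
  · rw [← hjoin]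
    exact trace_quotientRep C hC' e' hA hB SA hSA SB hSB Sg ε hSg x
  · have h1 := lift_eq_zero_of_red_eq hN hWW' hE h0
    have h2 := lift_eq_zero_of_trace_eq hN W' (inflate C hC' Sc' Sg)
      (fun q => inflate C hC' (Sq q) Sg) hac (Function.update a c 0) (fun x => ?_) hcard hE h1
    · refine lift_eq_zero_of_red_eq hN (MonoidHom.ext fun x => ?_) hE h2
      rw [red_inflate, red_inflate, hred]
    · show (induced _ (youngRep SA₁ SB₁) _ ⊗ₖ Sg _).trace =
        _ * (Sc' _ ⊗ₖ Sg _).trace + ∑ q, _ * (Sq q _ ⊗ₖ Sg _).trace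
      simp only [Matrix.trace_kronecker, ha, hSc', hSq]
      rw [sum_mul, ← add_sum_erase univ _ (mem_univ c),
        ← add_sum_erase univ (fun q => ((Function.update a c 0 q : ℕ) : ℤ) * _) (mem_univ c)]
      simp only [Function.update_self, Nat.cast_zero, zero_mul, zero_add, mul_assoc]
      congr 1
      refine sum_congr rfl fun q hq => ?_
      rw [Function.update_of_ne (Finset.mem_erase.mp hq).1]

/-- The criterion through a constituent, for a functional on colourings. -/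
theorem kronecker_pos_of_constituent_colouring {m k f ka kb n₀ n₁ n₀' n₁' dc dg : ℕ}
    {r v : n.Partition}
    (hr : ∀ i, row r i = m - i) (hm : m ≤ n) (e : (Fin k × Bool) ⊕ Fin f ≃ Fin n)
    (e' : Fin n₀ ⊕ Fin n₁ ≃ Fin n) {A : Fin n₀ → ℤ} {B : Fin n₁ → ℤ}
    (hjoin : join e' A B = beta v) (hA : IsBeta ka A) (hB : IsBeta kb B) (hk : ka + kb = k)
    {A₁ : Fin n₀' → ℤ} {B₁ : Fin n₁' → ℤ} (hA₁ : IsBeta ka A₁)
    (hA₁A : (∀ g : Perm (Fin ka), chi A₁ g = chi A g) ∨
      ∀ g : Perm (Fin ka), chi A₁ g = (Perm.sign g : ℤ) * chi A g)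
    (hB₁B : (∀ g : Perm (Fin kb), chi B₁ g = chi B g) ∨
      ∀ g : Perm (Fin kb), chi B₁ g = (Perm.sign g : ℤ) * chi B g)
    (c : k.Partition) (hc : ∑ σ : Perm (Fin k), chi (beta c) σ * splitSum A₁ B₁ σ ≠ 0)
    (Sc : Perm (Fin k) →* Matrix (Fin dc) (Fin dc) ℤ)
    (hSc : (∀ g, (Sc g).trace = chi (beta c) g) ∨
      ∀ g, (Sc g).trace = (Perm.sign g : ℤ) * chi (beta c) g)
    (Sg : Perm (Fin f) →* Matrix (Fin dg) (Fin dg) ℤ) (ε : ℤ)
    (hSg : ∀ g, (Sg g).trace = ε * chi (join e' (delta n₀) (delta n₁)) g)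
    (C : Subgroup (Perm (Fin n))) [DecidablePred (· ∈ C)]
    (hC : ∀ g, g ∈ C ↔ pairInv e * g = g * pairInv e)
    (F : (Fin n → Fin n) → Fin dc × Fin dg → ZMod 2)
    (hF : ∀ (x : C) g, cnt g = cnt (tableau r) → F (g ∘ ⇑((x : Perm (Fin n))⁻¹)) =
      red (inflate C (fun g hg => (hC g).mp hg) Sc Sg) x *ᵥ F g)
    (hne : ∑ π ∈ colStab (tableau r), F (tableau r ∘ π) ≠ 0) : 0 < kronecker r r v := by
  obtain ⟨d, R, hR, φ, hφ, y, hy⟩ := exists_hom_of_colouring r C _ F hF
  exact kronecker_pos_of_constituent hr hm e e' hjoin hA hB hk hA₁ hA₁A hB₁B c hc Sc hSc Sg ε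
    hSg C hC R hR φ hφ fun h0 => hne (by simp [← hy, h0])

end Vale.Agent.P197.Criterion
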