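import Vale.Agent.P197.Criterion.Hom

/-!
# Colourings give homomorphisms out of the staircase lattice

The lattice `ℤ[S_n] * b_T * a_T` has character `chiP p`; an equivariant function on colourings with
the row counts of `T` gives a map out of its reduction modulo `2`, whose value at the generator is
the sum over the column group.
-/

open Finset Equiv Matrix Representation

namespace Vale.Agent.P197

open SymChar

variable {n : ℕ}

/-- The column group of `T`. -/
def colStab (T : Fin n → Fin n) : Finset (Perm (Fin n)) := {π | colOf T ∘ π = colOf T}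

/-- Row symmetrizer times column antisymmetrizer in the other order, over `ℤ`. -/
noncomputable def coYoungSymZ (T : Fin n → Fin n) : MonoidAlgebra ℤ (Perm (Fin n)) :=
  (∑ c ∈ colStab T, MonoidAlgebra.single c (Perm.sign c : ℤ)) *
    ∑ r ∈ stab T, MonoidAlgebra.single r 1

lemma castGA_coYoungSymZ (T : Fin n → Fin n) :
    castGA n (coYoungSymZ T) = colSym T * rowSym T := by
  simp [castGA, coYoungSymZ, colStab, rowSym, colSym, map_sum, MonoidAlgebra.map_single]

lemma coeff_youngSym_one (T : Fin n → Fin n) : (youngSym T).coeff 1 = 1 := by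
  classical
  simp only [youngSym, rowSym, colSym, sum_mul, mul_sum, MonoidAlgebra.single_mul_single,
    MonoidAlgebra.coeff_sum, Finsupp.finsetSum_apply, MonoidAlgebra.coeff_single,
    Finsupp.single_apply]
  rw [sum_eq_single 1, sum_eq_single 1]
  · simp
  · intro r _ hr; rw [if_neg (by simpa using hr)]
  · intro hr; exact absurd (by simp) hr
  · intro c hc hc1
    refine sum_eq_zero fun r hr => if_neg fun he => hc1 ?_
    simp only [mem_stab] at hr
    simp only [mem_filter, mem_univ, true_and] at hc
    have hcr : c = r⁻¹ := eq_inv_of_mul_eq_one_right he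
    refine Equiv.ext fun x => row_col_injective T ?_ (congrFun hc x)
    have := congrFun hr (r⁻¹ x)
    simpa [hcr] using this.symm
  · intro hc; exact absurd (by simp) hc

/-- `e_T * e_T` is a nonzero multiple of `e_T`. -/
lemma youngSym_sq (p : n.Partition) :
    ∃ κ : ℂ, κ ≠ 0 ∧ youngSym (tableau p) * youngSym (tableau p) = κ • youngSym (tableau p) := by
  classical
  set e := youngSym (tableau p)
  let ρ := spechtRep p
  have hne : (Nat.card (Perm (Fin n)) : ℂ) ≠ 0 := by simp
  have : Invertible (Nat.card (Perm (Fin n)) : ℂ) := invertibleOfNonzero hne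
  have hrank : Module.finrank ℂ (IntertwiningMap ρ ρ) = 1 := by
    have h1 := card_inv_mul_sum_char_mul_char_eq_finrank ρ ρ
    rw [spechtRep_character, irr_inner (chiP_mem_irrSet p) (chiP_mem_irrSet p), if_pos rfl,
      ← Nat.card_eq_fintype_card, inv_mul_cancel₀ hne] at h1
    exact_mod_cast h1.symm
  have hmem : ∀ x ∈ (specht (tableau p)).toSubmodule, x * e ∈ (specht (tableau p)).toSubmodule := by
    intro x hx
    clear hx
    induction x using MonoidAlgebra.induction_on with
    | of g => exact Submodule.subset_span ⟨g, rfl⟩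
    | add a b ha hb => rw [add_mul]; exact add_mem ha hb
    | smul c a ha => rw [smul_mul_assoc]; exact Submodule.smul_mem _ c ha
  let f : IntertwiningMap ρ ρ :=
    { toLinearMap := (LinearMap.mulRight ℂ e).restrict hmem
      isIntertwining' := fun g => LinearMap.ext fun x => Subtype.ext (by
        show MonoidAlgebra.single g (1 : ℂ) * x.1 * e = MonoidAlgebra.single g 1 * (x.1 * e)
        rw [mul_assoc]) }
  let one : IntertwiningMap ρ ρ :=
    { toLinearMap := LinearMap.id, isIntertwining' := fun g => rfl }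
  obtain ⟨κ, hκ⟩ := (finrank_eq_one_iff_of_nonzero' one (fun h0 => by
    have := congrArg (fun F => ((F.toLinearMap ⟨e, youngSym_mem _⟩ :
      (specht (tableau p)).toSubmodule) : GA n)) h0
    exact youngSym_ne_zero (tableau p) this)).mp hrank f
  have hsq : e * e = κ • e := by
    have := congrArg (fun F => ((F.toLinearMap ⟨e, youngSym_mem _⟩ :
      (specht (tableau p)).toSubmodule) : GA n)) hκ
    exact this.symm
  refine ⟨κ, fun h0 => ?_, hsq⟩
  rw [h0, zero_smul] at hsq
  have hnil : IsNilpotent (LinearMap.mulRight ℂ e) := ⟨2, by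
    rw [pow_two]
    ext x
    simp [mul_assoc, hsq]⟩
  have htr : LinearMap.trace ℂ (GA n) (LinearMap.mulRight ℂ e) = (n.factorial : ℂ) := by
    let B : Module.Basis (Perm (Fin n)) ℂ (GA n) :=
      (Finsupp.basisSingleOne).map (MonoidAlgebra.coeffLinearEquiv ℂ).symm
    have hB : ∀ g, B g = MonoidAlgebra.single g 1 := fun g => by simp [B]
    rw [LinearMap.trace_eq_matrix_trace ℂ B, Matrix.trace]
    have hdiag : ∀ g, Matrix.diag (LinearMap.toMatrix B B (LinearMap.mulRight ℂ e)) g = 1 := by
      intro g
      rw [Matrix.diag_apply, LinearMap.toMatrix_apply, hB, LinearMap.mulRight_apply]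
      show (MonoidAlgebra.single g (1 : ℂ) * e).coeff g = 1
      rw [MonoidAlgebra.coeff_single_mul_apply, one_mul, inv_mul_cancel, coeff_youngSym_one]
    rw [sum_congr rfl fun g _ => hdiag g]
    simp [Fintype.card_perm]
  have := LinearMap.isNilpotent_trace_of_isNilpotent hnil
  rw [htr, isNilpotent_iff_eq_zero, Nat.cast_eq_zero] at this
  exact Nat.factorial_ne_zero n this

/-- The antipode turns `(ab)² = κ ab` into `(ba)² = κ ba`. -/
lemma coYoung_sq (T : Fin n → Fin n) {κ : ℂ}
    (hsq : youngSym T * youngSym T = κ • youngSym T) :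
    colSym T * rowSym T * (colSym T * rowSym T) = κ • (colSym T * rowSym T) := by
  let ι : GA n →ₗ[ℂ] GA n :=
    (MonoidAlgebra.coeffLinearEquiv ℂ).symm.toLinearMap ∘ₗ
      Finsupp.lmapDomain ℂ ℂ (fun g : Perm (Fin n) => g⁻¹) ∘ₗ
        (MonoidAlgebra.coeffLinearEquiv ℂ).toLinearMap
  have hsingle : ∀ g c, ι (MonoidAlgebra.single g c) = MonoidAlgebra.single g⁻¹ c := fun g c => by
    simp [ι, Finsupp.mapDomain_single]
  have hmul : ∀ x y, ι (x * y) = ι y * ι x := by
    intro x y
    induction x using MonoidAlgebra.induction_on with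
    | of g =>
      induction y using MonoidAlgebra.induction_on with
      | of h => simp [MonoidAlgebra.of_apply, MonoidAlgebra.single_mul_single, hsingle]
      | add u v hu hv => rw [mul_add, map_add, map_add, hu, hv, add_mul]
      | smul c u hu => rw [mul_smul_comm, map_smul, map_smul, hu, smul_mul_assoc]
    | add u v hu hv => rw [add_mul, map_add, map_add, hu, hv, mul_add]
    | smul c u hu => rw [smul_mul_assoc, map_smul, map_smul, hu, mul_smul_comm]
  have hinvset : ∀ (f : Fin n → ℕ) (π : Perm (Fin n)), f ∘ π = f → f ∘ ⇑π⁻¹ = f := by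
    intro f π h; funext z; simpa using (congrFun h (π⁻¹ z)).symm
  have ha : ι (rowSym T) = rowSym T := by
    simp only [rowSym, map_sum, hsingle]
    refine Finset.sum_equiv (Equiv.inv _) (fun π => ?_) fun π _ => rfl
    simp only [mem_stab, Equiv.inv_apply]
    constructor <;> intro h <;> funext z
    · simpa using (congrFun h (π⁻¹ z)).symm
    · simpa using (congrFun h (π z)).symm
  have hb : ι (colSym T) = colSym T := by
    simp only [colSym, map_sum, hsingle]
    refine Finset.sum_equiv (Equiv.inv _) (fun π => ?_) fun π _ => ?_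
    · simp only [mem_filter, mem_univ, true_and, Equiv.inv_apply]
      exact ⟨hinvset _ π, fun h => by simpa using hinvset _ π⁻¹ h⟩
    · simp [Perm.sign_inv]
  have h := congrArg ι hsq
  simpa [youngSym, hmul, ha, hb] using h

/-- `ℂ[S_n] * b_T * a_T` has character `chiP p`. -/
lemma coYoung_character (p : n.Partition) :
    (spanRep (colSym (tableau p) * rowSym (tableau p))).toRepresentation.character = chiP p := by
  obtain ⟨κ, hκ, hsq⟩ := youngSym_sq p
  set a := rowSym (tableau p)
  set b := colSym (tableau p)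
  have h1 : ∀ x ∈ (specht (tableau p)).toSubmodule, x * a ∈ (spanRep (b * a)).toSubmodule := by
    intro x hx
    induction hx using Submodule.span_induction with
    | mem x hx =>
      obtain ⟨g, rfl⟩ := hx
      have : MonoidAlgebra.single g 1 * youngSym (tableau p) * a =
          MonoidAlgebra.single g 1 * a * (b * a) := by simp [youngSym, a, b, mul_assoc]
      rw [this]
      induction MonoidAlgebra.single g (1 : ℂ) * a using MonoidAlgebra.induction_on with
      | of g => exact Submodule.subset_span ⟨g, rfl⟩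
      | add u v hu hv => rw [add_mul]; exact add_mem hu hv
      | smul c u hu => rw [smul_mul_assoc]; exact Submodule.smul_mem _ c hu
    | zero => simp
    | add x z _ _ hx hz => rw [add_mul]; exact add_mem hx hz
    | smul c x _ hx => rw [smul_mul_assoc]; exact Submodule.smul_mem _ c hx
  have h2 : ∀ x ∈ (spanRep (b * a)).toSubmodule,
      κ⁻¹ • (x * b) ∈ (specht (tableau p)).toSubmodule ∧ κ⁻¹ • (x * b) * a = x := by
    intro x hx
    induction hx using Submodule.span_induction with
    | mem x hx =>
      obtain ⟨g, rfl⟩ := hx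
      constructor
      · refine Submodule.smul_mem _ _ ?_
        rw [show MonoidAlgebra.single g 1 * (b * a) * b =
          MonoidAlgebra.single g 1 * b * youngSym (tableau p) by simp [youngSym, a, b, mul_assoc]]
        induction MonoidAlgebra.single g (1 : ℂ) * b using MonoidAlgebra.induction_on with
        | of g => exact Submodule.subset_span ⟨g, rfl⟩
        | add u v hu hv => rw [add_mul]; exact add_mem hu hv
        | smul c u hu => rw [smul_mul_assoc]; exact Submodule.smul_mem _ c hu
      ·
        have h4 : b * a * (b * a) = κ • (b * a) := coYoung_sq _ hsq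
        calc κ⁻¹ • (MonoidAlgebra.single g 1 * (b * a) * b) * a
            = MonoidAlgebra.single g 1 * (κ⁻¹ • (b * a * (b * a))) := by
              simp [mul_assoc, smul_mul_assoc, mul_smul_comm]
          _ = MonoidAlgebra.single g 1 * (b * a) := by
              rw [h4, smul_smul, inv_mul_cancel₀ hκ, one_smul]
    | zero => simp
    | add x z _ _ hx hz =>
      simp only [add_mul, smul_add]
      exact ⟨add_mem hx.1 hz.1, by rw [hx.2, hz.2]⟩
    | smul c x _ hx =>
      simp only [smul_mul_assoc] at hx ⊢
      rw [smul_comm κ⁻¹ c]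
      exact ⟨Submodule.smul_mem _ c hx.1, by rw [smul_comm κ⁻¹ c, hx.2]⟩
  have h5 : ∀ x ∈ (specht (tableau p)).toSubmodule, κ⁻¹ • (x * a * b) = x := by
    intro x hx
    induction hx using Submodule.span_induction with
    | mem x hx =>
      obtain ⟨g, rfl⟩ := hx
      rw [show MonoidAlgebra.single g 1 * youngSym (tableau p) * a * b =
        MonoidAlgebra.single g 1 * (youngSym (tableau p) * youngSym (tableau p)) by
          simp [youngSym, a, b, mul_assoc], hsq, mul_smul_comm, smul_smul, inv_mul_cancel₀ hκ,
        one_smul]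
    | zero => simp
    | add x z _ _ hx hz => simp only [add_mul, smul_add, hx, hz]
    | smul c x _ hx => simp only [smul_mul_assoc]; rw [smul_comm, hx]
  let φ : (spechtRep p).Equiv (spanRep (b * a)).toRepresentation :=
    { toLinearMap := (LinearMap.mulRight ℂ a).restrict h1
      invFun := fun x => ⟨κ⁻¹ • (x.1 * b), (h2 x x.2).1⟩
      left_inv := fun x => Subtype.ext (h5 x x.2)
      right_inv := fun x => Subtype.ext (h2 x x.2).2
      isIntertwining' := fun g => LinearMap.ext fun x => Subtype.ext (by
        show MonoidAlgebra.single g (1 : ℂ) * x.1 * a = MonoidAlgebra.single g 1 * (x.1 * a)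
        rw [mul_assoc]) }
  rw [← char_iso φ, spechtRep_character]

namespace Criterion

/-- An equivariant function on colourings gives a homomorphism out of the reduction of a lattice
with character `chi (beta r)`, taking the sum over the column group as a value. -/
theorem exists_hom_of_colouring (r : n.Partition) (C : Subgroup (Perm (Fin n)))
    [DecidablePred (· ∈ C)] {ι : Type*} [Fintype ι] [DecidableEq ι]
    (M : C →* Matrix ι ι (ZMod 2)) (F : (Fin n → Fin n) → ι → ZMod 2)
    (hF : ∀ (c : C) g, cnt g = cnt (tableau r) →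
      F (g ∘ ⇑((c : Perm (Fin n))⁻¹)) = M c *ᵥ F g) :
    ∃ (d : ℕ) (R : Perm (Fin n) →* Matrix (Fin d) (Fin d) ℤ),
      (∀ g, (R g).trace = chi (beta r) g) ∧
      ∃ f : (Fin d → ZMod 2) →ₗ[ZMod 2] (ι → ZMod 2),
        (∀ (c : C) x, f (red R c *ᵥ x) = M c *ᵥ f x) ∧
        ∃ x, f x = ∑ π ∈ colStab (tableau r), F (tableau r ∘ π) := by
  classical
  set T := tableau r
  obtain ⟨d, R, b, hR, hact, hb, hy, -⟩ := exists_latticeForm (coYoungSymZ T)
  have hR' : ∀ g, (R g).trace = chi (beta r) g := fun g => by
    have h := hR g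
    rw [castGA_coYoungSymZ, coYoung_character] at h
    simp only [chiP, chiC] at h
    exact_mod_cast h
  let t : {g : Fin n → Fin n // cnt g = cnt T} → Perm (Fin n) := fun g =>
    (exists_perm_of_cnt_eq g.2.symm).choose⁻¹
  have ht : ∀ g, T ∘ ⇑(t g)⁻¹ = g.1 := fun g => by
    rw [inv_inv]; exact (exists_perm_of_cnt_eq g.2.symm).choose_spec
  let P : MonoidAlgebra ℤ (Perm (Fin n)) →ₗ[ℤ] (ι → ZMod 2) :=
    ∑ g, ((LinearMap.lsmul ℤ (ι → ZMod 2)).flip (F g.1)) ∘ₗ
      (Finsupp.lapply (t g)) ∘ₗ (MonoidAlgebra.coeffLinearEquiv ℤ).toLinearMap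
  have hP : ∀ x, P x = ∑ g, x.coeff (t g) • F g.1 := fun x => by
    simp [P, LinearMap.sum_apply]
  have hinv : ∀ x ∈ spanLattice (coYoungSymZ T), ∀ σ, ∀ s ∈ stab T,
      x.coeff (σ * s) = x.coeff σ := by
    intro x hx
    induction hx using Submodule.span_induction with
    | mem x hx =>
      obtain ⟨h, rfl⟩ := hx
      intro σ s hs
      simp only [coYoungSymZ, ← mul_assoc]
      generalize MonoidAlgebra.single h (1 : ℤ) *
        (∑ c ∈ colStab T, MonoidAlgebra.single c (Perm.sign c : ℤ)) = z
      simp only [mul_sum, MonoidAlgebra.coeff_sum, Finsupp.finsetSum_apply,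
        MonoidAlgebra.coeff_mul_single_apply, mul_one]
      refine Finset.sum_equiv (Equiv.mulRight s⁻¹) (fun x => ?_) fun x _ => ?_
      · rw [mem_stab] at hs
        have hs' : T ∘ ⇑s⁻¹ = T := by
          funext z; simpa using (congrFun hs (s⁻¹ z)).symm
        simp only [mem_stab, Equiv.coe_mulRight, Perm.coe_mul]
        constructor <;> intro hx
        · rw [← Function.comp_assoc, hx, hs']
        · rw [← Function.comp_assoc] at hx
          calc T ∘ x = ((T ∘ x) ∘ ⇑s⁻¹) ∘ s := by
                funext z; simp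
            _ = T := by rw [hx, hs]
      · simp [mul_assoc]
    | zero => simp
    | add x z _ _ hx hz => intro σ s hs; simp [hx σ s hs, hz σ s hs]
    | smul c x _ hx =>
      intro σ s hs
      rw [MonoidAlgebra.coeff_smul, Finsupp.smul_apply, Finsupp.smul_apply, hx σ s hs]
  have hequiv : ∀ (c : C), ∀ x ∈ spanLattice (coYoungSymZ T),
      P (MonoidAlgebra.single (c : Perm (Fin n)) 1 * x) = M c *ᵥ P x := by
    intro c x hx
    rw [hP, hP, mulVec_sum]
    let act : {g : Fin n → Fin n // cnt g = cnt T} ≃ {g : Fin n → Fin n // cnt g = cnt T} :=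
      (Equiv.arrowCongr (c : Perm (Fin n)) (Equiv.refl _)).subtypeEquiv fun g => by
        show _ ↔ cnt (g ∘ (c : Perm (Fin n)).symm) = _
        rw [cnt_comp_equiv]
    rw [← act.sum_comp]
    refine sum_congr rfl fun g _ => ?_
    have hval : (act g).1 = g.1 ∘ ⇑(c : Perm (Fin n))⁻¹ := rfl
    rw [MonoidAlgebra.coeff_single_mul_apply, one_mul, hval, hF c g.1 g.2, mulVec_smul]
    congr 1
    have hs : (t g)⁻¹ * ((c : Perm (Fin n))⁻¹ * t (act g)) ∈ stab T := by
      rw [mem_stab, Perm.coe_mul, ← Function.comp_assoc, ht, Perm.coe_mul, ← Function.comp_assoc,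
        ← hval, ← ht (act g), Function.comp_assoc, ← Perm.coe_mul, inv_mul_cancel, Perm.coe_one,
        Function.comp_id]
    have h1 := hinv x hx (t g) _ hs
    rwa [mul_inv_cancel_left] at h1
  let f : (Fin d → ZMod 2) →ₗ[ZMod 2] (ι → ZMod 2) :=
    Fintype.linearCombination (ZMod 2) fun i => P (b i)
  have hPspan : ∀ (z : Fin d → ℤ), P (∑ i, z i • b i) = f fun i => (z i : ZMod 2) := by
    intro z
    rw [map_sum]
    simp only [f, Fintype.linearCombination_apply, map_zsmul, Int.cast_smul_eq_zsmul]
  have hf : ∀ (c : C) x, f (red R c *ᵥ x) = M c *ᵥ f x := by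
    intro c x
    have h1 : f (red R c *ᵥ x) = (f ∘ₗ (red R c).mulVecLin) x := rfl
    have h2 : M c *ᵥ f x = ((M c).mulVecLin ∘ₗ f) x := rfl
    rw [h1, h2]
    congr 1
    refine LinearMap.pi_ext' fun j => LinearMap.ext_ring ?_
    simp only [LinearMap.comp_apply, LinearMap.coe_single, mulVecLin_apply,
      Matrix.mulVec_single, MulOpposite.op_one, one_smul]
    have h3 := hequiv c (b j) (hb j)
    rw [hact, hPspan] at h3
    calc f ((red R c).col j) = f (fun i => ((R c i j : ℤ) : ZMod 2)) := rfl
      _ = M c *ᵥ P (b j) := h3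
      _ = M c *ᵥ f (Pi.single j 1) := by simp [f, Fintype.linearCombination_apply_single]
  obtain ⟨z, hz⟩ := (Submodule.mem_span_range_iff_exists_fun ℤ).mp hy
  have hPy : P (coYoungSymZ T) = ∑ π ∈ colStab T, F (T ∘ π) := by
    rw [hP]
    have hco : ∀ g, (coYoungSymZ T).coeff (t g) =
        ∑ c ∈ colStab T, if T ∘ ⇑c⁻¹ = g.1 then (Perm.sign c : ℤ) else 0 := by
      intro g
      simp only [coYoungSymZ, sum_mul, mul_sum, MonoidAlgebra.single_mul_single,
        MonoidAlgebra.coeff_sum, Finsupp.finsetSum_apply, MonoidAlgebra.coeff_single,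
        Finsupp.single_apply, mul_one]
      first | rw [sum_comm (s := stab T)] | skip
      refine sum_congr rfl fun c _ => ?_
      split_ifs with h
      · rw [sum_eq_single_of_mem (c⁻¹ * t g) ?_ fun r _ hr => if_neg fun e => hr ?_,
          if_pos (mul_inv_cancel_left c (t g))]
        · rw [mem_stab, Perm.coe_mul, ← Function.comp_assoc, h, ← ht g, Function.comp_assoc,
            ← Perm.coe_mul, inv_mul_cancel, Perm.coe_one, Function.comp_id]
        · rw [← e, inv_mul_cancel_left]
      · refine sum_eq_zero fun r hr => if_neg fun e => h ?_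
        rw [mem_stab] at hr
        rw [← ht g, ← e, _root_.mul_inv_rev, Perm.coe_mul, ← Function.comp_assoc]
        congr 1
        funext z; simpa using congrFun hr (r⁻¹ z)
    simp only [hco, sum_smul]
    rw [sum_comm]
    refine Finset.sum_bij' (fun c _ => c⁻¹) (fun π _ => π⁻¹) ?_ ?_ ?_ ?_ ?_
    · intro c hc; simp only [colStab, mem_filter, mem_univ, true_and] at hc ⊢
      funext z; simpa using (congrFun hc (c⁻¹ z)).symm
    · intro c hc; simp only [colStab, mem_filter, mem_univ, true_and] at hc ⊢
      funext z; simpa using (congrFun hc (c⁻¹ z)).symm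
    · intro c _; simp
    · intro c _; simp
    intro c _
    have hc : cnt (T ∘ ⇑c⁻¹) = cnt T := cnt_comp_equiv _ _
    rw [Fintype.sum_eq_single (⟨_, hc⟩ : {g : Fin n → Fin n // cnt g = cnt T})
      fun g hg => by rw [if_neg (fun e => hg (Subtype.ext e.symm)), zero_smul], if_pos rfl]
    rcases Int.units_eq_one_or (Perm.sign c) with h | h <;> rw [h] <;> simp
    funext i
    exact ZMod.neg_eq_self_mod_two _
  exact ⟨d, R, hR', f, hf, _, by rw [← hPy, ← hz, hPspan]⟩

/-- An equivariant function on colourings whose sum over the column group is nonzero gives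
`g(ρ, ρ, ν) > 0`. -/
theorem kronecker_pos_of_colouring {m : ℕ} {r v : n.Partition} (hr : ∀ i, row r i = m - i)
    (hm : m ≤ n) {τ : Perm (Fin n)} (hτ : τ * τ = 1) (C : Subgroup (Perm (Fin n)))
    [DecidablePred (· ∈ C)] (hC : ∀ g, g ∈ C ↔ τ * g = g * τ)
    {ι : Type*} [Fintype ι] [DecidableEq ι] (W : C →* Matrix ι ι ℤ) (ε : ℤ)
    (hW : ∀ c : C, (W c).trace = ε * ∑ f ∈ fixedCol n τ,
      if f ∘ ((c : Perm (Fin n))) = f then eps (beta v) (cnt f) else 0)
    (F : (Fin n → Fin n) → ι → ZMod 2)
    (hF : ∀ (c : C) g, cnt g = cnt (tableau r) → F (g ∘ ⇑((c : Perm (Fin n))⁻¹)) = red W c *ᵥ F g)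
    (hne : ∑ π ∈ colStab (tableau r), F (tableau r ∘ π) ≠ 0) : 0 < kronecker r r v := by
  obtain ⟨d, R, hR, f, hf, x, hx⟩ := exists_hom_of_colouring r C (red W) F hF
  exact kronecker_pos_of_hom hr hm R hR hτ C hC W ε hW f hf fun h0 => hne (by simp [← hx, h0])

end Criterion

end Vale.Agent.P197
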