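import Mathlib

/-!
# Detecting homology of an involution by traces

Over a ring in which `2` is nilpotent, an idempotent `E` commuting with an involution `T` whose
reduction has no homology satisfies `trace (T * E) = 0`.
-/

open Finset Matrix

namespace Vale.Agent.P197.Criterion

variable {ι : Type*} [Fintype ι] [DecidableEq ι]

lemma trace_eq_zero_of_relTrace {R : Type*} [CommRing R] {N : ℕ} (h2 : (2 : R) ^ N = 0)
    {E T u : Matrix ι ι R} (huE : u * E = u) (hEu : E * u = u) (hT : T * T = 1)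
    (h : u + T * u * T = E) : (T * E).trace = 0 := by
  have key : ∀ j, (T * (u ^ j * E)).trace = 2 * (T * (u ^ (j + 1) * E)).trace := by
    intro j
    have h1 : u ^ j * u * E = u ^ j * u := by rw [mul_assoc, huE]
    have h3 : u * (u ^ j * T) = u ^ j * u * T := by rw [← mul_assoc, ← pow_succ', pow_succ]
    calc (T * (u ^ j * E)).trace = (T * (u ^ j * u)).trace + (T * u ^ j * (T * u * T)).trace := by
          rw [← trace_add, mul_assoc T (u ^ j), ← mul_add, ← mul_add, h]
      _ = (T * (u ^ j * u)).trace + (T * (u ^ j * u)).trace := by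
          congr 1
          calc (T * u ^ j * (T * u * T)).trace = (T * (T * u ^ j * (T * u))).trace := by
                rw [show T * u ^ j * (T * u * T) = T * u ^ j * (T * u) * T by
                  simp only [mul_assoc], trace_mul_comm]
            _ = (u ^ j * (T * u)).trace := by
                rw [← mul_assoc T (T * u ^ j), ← mul_assoc T T, hT, one_mul]
            _ = (T * (u ^ j * u)).trace := by
                rw [← mul_assoc, trace_mul_comm, h3, trace_mul_comm]
      _ = 2 * (T * (u ^ (j + 1) * E)).trace := by rw [pow_succ, h1, two_mul]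
  have h4 : ∀ j, (T * E).trace = 2 ^ j * (T * (u ^ j * E)).trace := by
    intro j
    induction j with
    | zero => simp
    | succ j ih => rw [ih, key, ← mul_assoc, ← pow_succ]
  rw [h4 N, h2, zero_mul]

/-- Over a field of characteristic two, vanishing homology on the image of an idempotent gives a
relative-trace decomposition of it. -/
lemma exists_relTrace_field {V : Type*} [AddCommGroup V] [Module (ZMod 2) V]
    (E T : V →ₗ[ZMod 2] V) (hE : ∀ x, E (E x) = E x) (hT : ∀ x, T (T x) = x)
    (hc : ∀ x, T (E x) = E (T x))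
    (hex : ∀ x, E x = x → T x = x → ∃ y, E y = y ∧ x = y + T y) :
    ∃ u : V →ₗ[ZMod 2] V, (∀ x, u (E x) = u x) ∧ (∀ x, E (u x) = u x) ∧
      ∀ x, u x + T (u (T x)) = E x := by
  have two : ∀ a : V, a + a = 0 := fun a => by
    rw [← two_smul (ZMod 2) a, show (2 : ZMod 2) = 0 from rfl, zero_smul]
  let W := LinearMap.range E
  have hW : ∀ x ∈ W, E x = x := by rintro _ ⟨y, rfl⟩; exact hE y
  let D : W →ₗ[ZMod 2] W := (LinearMap.id + T).restrict (p := W) (q := W) fun x hx =>
    ⟨x + T x, by rw [map_add, ← hc, hW x hx]; rfl⟩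
  have hD : ∀ x, (D x : V) = x + T x := fun x => rfl
  have hDD : ∀ x, D (D x) = 0 := fun x => Subtype.ext (by
    rw [hD, hD, map_add, hT, add_comm (T (x : V)), two]; rfl)
  obtain ⟨q₀, hq₀⟩ := D.rangeRestrict.exists_rightInverse_of_surjective D.range_rangeRestrict
  obtain ⟨q, hq⟩ := LinearMap.exists_extend q₀
  have hDq : ∀ y, D (q (D y)) = D y := by
    intro y
    have h1 : q (D y) = q₀ ⟨D y, y, rfl⟩ := LinearMap.congr_fun hq ⟨D y, y, rfl⟩
    rw [h1]
    exact congrArg Subtype.val (LinearMap.congr_fun hq₀ ⟨D y, y, rfl⟩)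
  have hker : ∀ x, D x = 0 → D (q x) = x := by
    intro x hx
    have h1 : T (x : V) = x := by
      have := congrArg Subtype.val hx
      rw [hD] at this
      rw [← add_zero (T (x : V)), ← two (x : V), ← add_assoc, add_comm (T (x : V)), this]
      simp
    obtain ⟨y, hy, hxy⟩ := hex x (hW x x.2) h1
    have h2 : x = D ⟨y, y, hy⟩ := Subtype.ext hxy
    rw [h2, hDq]
  let v : W →ₗ[ZMod 2] W := q ∘ₗ (LinearMap.id + q ∘ₗ D) + q ∘ₗ D
  let Ê : V →ₗ[ZMod 2] W := E.rangeRestrict
  refine ⟨W.subtype ∘ₗ v ∘ₗ Ê, fun x => ?_, fun x => hW _ (v (Ê x)).2, fun x => ?_⟩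
  · show (v (Ê (E x)) : V) = (v (Ê x) : V)
    rw [show Ê (E x) = Ê x from Subtype.ext (hE x)]
  · set z := Ê x
    have hv : ∀ y, (v y : V) = (q (y + q (D y)) : V) + (q (D y) : V) := fun y => rfl
    have hTz : Ê (T x) = z + D z := Subtype.ext (by
      show E (T x) = (z : V) + ((z : V) + T (z : V))
      rw [← add_assoc, two, zero_add, ← hc]
      rfl)
    show (v (Ê x) : V) + T (v (Ê (T x)) : V) = E x
    rw [hTz]
    have hT' : ∀ y : W, T (y : V) = (y : V) + (D y : V) := fun y => by
      rw [hD, ← add_assoc, two, zero_add]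
    rw [hT', show (v z : V) + ((v (z + D z) : V) + (D (v (z + D z)) : V)) =
      ((v z + (v (z + D z) + D (v (z + D z))) : W) : V) from rfl]
    show _ = (z : V)
    congr 1
    have e1 : D (z + q (D z)) = 0 := by
      rw [map_add, hDq]; exact Subtype.ext (two _)
    have e2 : v (D z) = q (D z) := by simp [v, hDD]
    have e3 : D (v z) = z + q (D z) + D z := by
      simp only [v, LinearMap.add_apply, LinearMap.comp_apply, LinearMap.id_apply]
      rw [map_add, hker _ e1, hDq]
    have twoW : ∀ a : W, a + a = 0 := fun a => Subtype.ext (two _)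
    rw [map_add v, e2, map_add D, e3, hDq]
    calc v z + (v z + q (D z) + (z + q (D z) + D z + D z))
        = (v z + v z) + (q (D z) + q (D z)) + (D z + D z) + z := by abel
      _ = z := by simp [twoW]

variable {N : ℕ}

/-- Reduction modulo `2`. -/
abbrev red2 (hN : 0 < N) : ZMod (2 ^ N) →+* ZMod 2 :=
  ZMod.castHom (dvd_pow_self 2 hN.ne') (ZMod 2)

/-- If the reduction of `T` has no homology on the image of `E`, then `trace (T * E) = 0`. -/
theorem trace_eq_zero_of_homology (hN : 0 < N) {E T : Matrix ι ι (ZMod (2 ^ N))}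
    (hE : E * E = E) (hT : T * T = 1) (hc : T * E = E * T)
    (hex : ∀ x, E.map (red2 hN) *ᵥ x = x → T.map (red2 hN) *ᵥ x = x →
      ∃ y, x = y + T.map (red2 hN) *ᵥ y) : (T * E).trace = 0 := by
  set φ := (red2 hN).mapMatrix (m := ι)
  have hmul : ∀ (A B : Matrix ι ι (ZMod (2 ^ N))) x, φ A *ᵥ (φ B *ᵥ x) = φ (A * B) *ᵥ x :=
    fun A B x => by rw [mulVec_mulVec, map_mul]
  obtain ⟨u, hu1, hu2, hu3⟩ := exists_relTrace_field (φ E).mulVecLin (φ T).mulVecLin
    (fun x => by simp only [mulVecLin_apply, hmul, hE])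
    (fun x => by simp only [mulVecLin_apply, hmul, hT, map_one, one_mulVec])
    (fun x => by simp only [mulVecLin_apply, hmul, hc])
    (fun x h1 h2 => by
      obtain ⟨y, hy⟩ := hex x h1 h2
      refine ⟨φ E *ᵥ y, by simp only [mulVecLin_apply, hmul, hE], ?_⟩
      simp only [mulVecLin_apply] at h1 ⊢
      conv_lhs => rw [← h1, hy]
      rw [mulVec_add, show T.map (red2 hN) = φ T from rfl, hmul, hmul, hc])
  let U₀ : Matrix ι ι (ZMod (2 ^ N)) := (LinearMap.toMatrix' u).map fun z => (z.val : ZMod (2 ^ N))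
  have hU₀ : φ U₀ = LinearMap.toMatrix' u := by
    ext i j
    simp [φ, U₀, red2]
  set U := E * U₀ * E
  set Z := U + T * U * T + (1 - E)
  have hφZ : φ Z = 1 := by
    apply Matrix.toLin'.injective
    refine LinearMap.ext fun x => ?_
    have hU : ∀ y, φ U *ᵥ y = u y := by
      intro y
      rw [map_mul, map_mul, ← mulVec_mulVec, ← mulVec_mulVec, hU₀, LinearMap.toMatrix'_mulVec]
      simpa using (congrArg (φ E *ᵥ ·) (hu1 y)).trans (hu2 y)
    rw [toLin'_apply, toLin'_apply, one_mulVec]
    simp only [Z, map_add, map_sub, map_one, map_mul φ T, map_mul φ (T * U), one_mulVec,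
      add_mulVec, sub_mulVec, ← mulVec_mulVec, hU]
    rw [show u x + φ T *ᵥ u (φ T *ᵥ x) = φ E *ᵥ x from hu3 x]
    abel
  have hZ : IsUnit Z := by
    rw [Matrix.isUnit_iff_isUnit_det]
    have h1 : red2 hN Z.det = 1 := by
      rw [RingHom.map_det]
      show (φ Z).det = 1
      rw [hφZ, det_one]
    have h2 : IsNilpotent (Z.det - 1) := by
      have h3 : red2 hN (Z.det - 1) = 0 := by rw [map_sub, h1, map_one, sub_self]
      obtain ⟨k, hk⟩ : (2 : ZMod (2 ^ N)) ∣ Z.det - 1 := by
        have : NeZero (2 ^ N) := ⟨by positivity⟩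
        have h4 : (2 : ℕ) ∣ (Z.det - 1).val := by
          rw [← ZMod.natCast_eq_zero_iff, ← map_natCast (red2 hN), ZMod.natCast_zmod_val, h3]
        obtain ⟨k, hk⟩ := h4
        exact ⟨k, by rw [← ZMod.natCast_zmod_val (Z.det - 1), hk]; push_cast; rfl⟩
      refine ⟨N, ?_⟩
      rw [hk, mul_pow, show (2 : ZMod (2 ^ N)) ^ N = ((2 ^ N : ℕ) : ZMod (2 ^ N)) by push_cast; rfl,
        ZMod.natCast_self, zero_mul]
    simpa using h2.isUnit_add_one
  obtain ⟨Zu, hZu⟩ := hZ
  have hEU : E * U = U := by simp [U, ← mul_assoc, hE]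
  have hUE : U * E = U := by simp [U, mul_assoc, hE]
  have hEW : E * (T * U * T) = T * U * T := by
    rw [← mul_assoc, ← mul_assoc, ← hc, mul_assoc T E U, hEU]
  have hWE : T * U * T * E = T * U * T := by
    rw [mul_assoc (T * U), hc, ← mul_assoc, mul_assoc T U E, hUE]
  have hZE : Commute Z E := by
    show Z * E = E * Z
    simp only [Z, add_mul, mul_add, sub_mul, mul_sub, hUE, hEU, hEW, hWE, hE, one_mul, mul_one]
  have hZT : Commute Z T := by
    show Z * T = T * Z
    have e1 : T * U * T * T = T * U := by rw [mul_assoc (T * U), hT, mul_one]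
    have e2 : T * (T * U * T) = U * T := by rw [← mul_assoc, ← mul_assoc, hT, one_mul]
    simp only [Z, add_mul, mul_add, sub_mul, mul_sub, e1, e2, hc, one_mul, mul_one]
    abel
  rw [← hZu] at hZE hZT
  have iE := hZE.units_inv_left
  have iT := hZT.units_inv_left
  have h2N : (2 : ZMod (2 ^ N)) ^ N = 0 := by
    rw [show (2 : ZMod (2 ^ N)) ^ N = ((2 ^ N : ℕ) : ZMod (2 ^ N)) by push_cast; rfl]
    exact ZMod.natCast_self _
  refine trace_eq_zero_of_relTrace h2N (u := U * (↑Zu⁻¹ : Matrix ι ι _)) ?_ ?_ hT ?_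
  · rw [mul_assoc, iE.eq, ← mul_assoc, hUE]
  · rw [← mul_assoc, hEU]
  · rw [show T * (U * ↑Zu⁻¹) * T = T * U * T * ↑Zu⁻¹ by
      simp only [mul_assoc]; rw [iT.eq], ← add_mul]
    have : U + T * U * T = E * (Zu : Matrix ι ι _) := by
      rw [hZu]
      simp only [Z, mul_add, mul_sub, hEU, hEW, hE, mul_one]
      abel
    rw [this, mul_assoc, Units.mul_inv, mul_one]

end Vale.Agent.P197.Criterion
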