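import Vale.Agent.P197.Criterion.Colouring
import Vale.Agent.P197.Staircase.Partition

/-!
# Vectors for the criterion

* a `2`-group fixes a nonzero vector of any nonzero module modulo `2`;
* the staircase lattice has a vector fixed by the row group whose column sum is nonzero mod `2`.
-/

open Finset Equiv Matrix Representation

namespace Vale.Agent.P197.Criterion

open SymChar

/-- A `2`-group fixes a nonzero vector. -/
theorem exists_fixed_vector {G : Type*} [Group G] [Finite G] {ι : Type*} [Fintype ι]
    [DecidableEq ι] [Nonempty ι] (Y : Subgroup G) (hY : IsPGroup 2 Y)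
    (M : G →* Matrix ι ι (ZMod 2)) :
    ∃ w : ι → ZMod 2, w ≠ 0 ∧ ∀ y ∈ Y, M y *ᵥ w = w := by
  letI : MulAction Y (ι → ZMod 2) :=
    { smul := fun y w => M y *ᵥ w
      one_smul := fun w => by show M ((1 : Y) : G) *ᵥ w = w; simp
      mul_smul := fun y y' w => by
        show M ((y * y' : Y) : G) *ᵥ w = M y *ᵥ (M y' *ᵥ w)
        rw [mulVec_mulVec, ← map_mul, Subgroup.coe_mul] }
  have hcard : 2 ∣ Nat.card (ι → ZMod 2) := by
    rw [Nat.card_fun, Nat.card_zmod]
    exact dvd_pow_self 2 (by simp)
  obtain ⟨w, hw, hne⟩ := hY.exists_fixed_point_of_prime_dvd_card_of_fixed_point (ι → ZMod 2) hcard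
    (a := 0) (fun y => by show M y *ᵥ (0 : ι → ZMod 2) = 0; simp)
  exact ⟨w, Ne.symm hne, fun y hy => hw ⟨y, hy⟩⟩

/-- `e_T * e_T = (n! / d) e_T` with an odd factor, for a staircase. -/
theorem youngSymZ_sq {n m : ℕ} {q : n.Partition} (hq : ∀ i, row q i = m - i) (hm : m ≤ n) :
    ∃ κ : ℤ, Odd κ ∧ youngSymZ (tableau q) * youngSymZ (tableau q) = κ • youngSymZ (tableau q) := by
  classical
  set eZ := youngSymZ (tableau q)
  obtain ⟨c, hc0, hsq⟩ := youngSym_sq q
  set e := youngSym (tableau q)
  have hcast : castGA n eZ = e := castGA_youngSymZ _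
  have hinj : Function.Injective (castGA n) := by
    intro x y h
    refine MonoidAlgebra.coeff_injective (Finsupp.ext fun g => ?_)
    have := congrArg (fun z : GA n => z.coeff g) h
    simpa [castGA] using this
  set κ := (eZ * eZ).coeff 1
  have hκ : c = (κ : ℂ) := by
    have h1 := congrArg (fun z : GA n => z.coeff 1) hsq
    simp only [MonoidAlgebra.coeff_smul, Finsupp.smul_apply, coeff_youngSym_one, e, smul_eq_mul,
      mul_one] at h1
    rw [← h1, show youngSym (tableau q) = castGA n eZ from hcast.symm, ← map_mul]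
    simp only [castGA, κ, ← map_mul, MonoidAlgebra.coe_mapRingHom, MonoidAlgebra.coeff_map,
      Finsupp.mapRange_apply]
    rfl
  refine ⟨κ, ?_, hinj ?_⟩
  swap
  · rw [map_mul, castGA_smul, hcast, hsq, hκ]
  -- `κ * χ(1) = n!`
  have hker : ∀ x ∈ (specht (tableau q)).toSubmodule, x * e = c • x := by
    intro x hx
    induction hx using Submodule.span_induction with
    | mem x hx =>
      obtain ⟨g, rfl⟩ := hx
      show _ * youngSym (tableau q) * e = _
      rw [mul_assoc, hsq, mul_smul_comm]
    | zero => simp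
    | add x y _ _ hx hy => rw [add_mul, hx, hy, smul_add]
    | smul a x _ hx => rw [smul_mul_assoc, hx, smul_comm]
  have hmemx : ∀ x : GA n, x * e ∈ (specht (tableau q)).toSubmodule := by
    intro x
    induction x using MonoidAlgebra.induction_on with
    | of g => exact Submodule.subset_span ⟨g, rfl⟩
    | add a b ha hb => rw [add_mul]; exact add_mem ha hb
    | smul a x hx => rw [smul_mul_assoc]; exact Submodule.smul_mem _ a hx
  let f : GA n →ₗ[ℂ] GA n := c⁻¹ • LinearMap.mulRight ℂ e
  have hp : LinearMap.IsProj (specht (tableau q)).toSubmodule f :=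
    ⟨fun x => Submodule.smul_mem _ _ (hmemx x), fun x hx => by
      show c⁻¹ • (x * e) = x
      rw [hker x hx, smul_smul, inv_mul_cancel₀ hc0, one_smul]⟩
  have htr : LinearMap.trace ℂ (GA n) (LinearMap.mulRight ℂ e) = (n.factorial : ℂ) := by
    let B : Module.Basis (Perm (Fin n)) ℂ (GA n) :=
      (Finsupp.basisSingleOne).map (MonoidAlgebra.coeffLinearEquiv ℂ).symm
    have hB : ∀ g, B g = MonoidAlgebra.single g 1 := fun g => by simp [B]
    rw [LinearMap.trace_eq_matrix_trace ℂ B, Matrix.trace]
    have hdiag : ∀ g, Matrix.diag (LinearMap.toMatrix B B (LinearMap.mulRight ℂ e)) g = 1 := by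
      intro g
      rw [Matrix.diag_apply, LinearMap.toMatrix_apply, hB, LinearMap.mulRight_apply]
      show (MonoidAlgebra.single g (1 : ℂ) * e).coeff g = 1
      rw [MonoidAlgebra.coeff_single_mul_apply, one_mul, inv_mul_cancel, coeff_youngSym_one]
    rw [sum_congr rfl fun g _ => hdiag g]
    simp [Fintype.card_perm]
  have h1 := hp.trace
  rw [map_smul, htr, smul_eq_mul] at h1
  have hd : (Module.finrank ℂ (specht (tableau q)).toSubmodule : ℂ) = (chi (beta q) (1 : Perm (Fin n)) : ℂ) := by
    have h2 := congrFun (spechtRep_character q) 1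
    rw [char_one] at h2
    simpa [chiP, chiC] using h2
  rw [hd, hκ] at h1
  have hκ0 : (κ : ℂ) ≠ 0 := hκ ▸ hc0
  have h3 : (n.factorial : ℤ) = κ * chi (beta q) (1 : Perm (Fin n)) := by
    have : ((n.factorial : ℤ) : ℂ) = ((κ * chi (beta q) (1 : Perm (Fin n)) : ℤ) : ℂ) := by
      push_cast
      rw [← h1]
      field_simp
    exact_mod_cast this
  obtain ⟨d, R, hR⟩ := exists_intForm q
  have hd1 : chi (beta q) (1 : Perm (Fin n)) = d := by
    rw [← hR, map_one, Matrix.trace_one, Fintype.card_fin]
  obtain ⟨Q⟩ := (Sylow.nonempty : Nonempty (Sylow 2 (Perm (Fin n))))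
  obtain ⟨k, hk⟩ := card_sylow_dvd hq hm R hR Q
  have hi : (n.factorial : ℤ) = (Nat.card Q : ℤ) * Q.toSubgroup.index := by
    have := Q.toSubgroup.card_mul_index
    rw [Nat.card_eq_fintype_card (α := Perm (Fin n)), Fintype.card_perm, Fintype.card_fin] at this
    exact_mod_cast this.symm
  have heq : κ * k = Q.toSubgroup.index := by
    apply mul_left_cancel₀ (show (Nat.card Q : ℤ) ≠ 0 by simp)
    rw [← hi, h3, hd1, hk]
    ring
  have h2 := Q.not_dvd_index
  have h4 : Odd (κ * k) := by
    rw [heq, Int.odd_coe_nat, Nat.odd_iff]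
    omega
  exact (Int.odd_mul.mp h4).1

/-- The staircase lattice has a row-invariant vector with nonzero column sum modulo `2`. -/
theorem exists_core_vector {n m : ℕ} {q : n.Partition} (hq : ∀ i, row q i = m - i) (hm : m ≤ n) :
    ∃ (d : ℕ) (S : Perm (Fin n) →* Matrix (Fin d) (Fin d) ℤ) (u : Fin d → ZMod 2),
      (∀ g, (S g).trace = chi (beta q) g) ∧
      (∀ s : Perm (Fin n), tableau q ∘ ⇑s = tableau q → red S s *ᵥ u = u) ∧
      ∑ π ∈ colStab (tableau q), red S π *ᵥ u ≠ 0 := by
  classical
  set T := tableau q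
  set e := youngSymZ T
  obtain ⟨d, S, b, hS, hact, -, hy, hli⟩ := exists_latticeForm e
  obtain ⟨z, hz⟩ := (Submodule.mem_span_range_iff_exists_fun ℤ).mp hy
  have hrep : ∀ g (x : Fin d → ℤ), MonoidAlgebra.single g (1 : ℤ) * ∑ i, x i • b i =
      ∑ i, (S g *ᵥ x) i • b i := by
    intro g x
    simp only [mul_sum, mul_smul_comm, hact, smul_sum, smul_smul, mulVec, dotProduct, sum_smul]
    rw [sum_comm]
    exact sum_congr rfl fun i _ => sum_congr rfl fun j _ => by rw [mul_comm]
  have huniq : ∀ x y : Fin d → ℤ, ∑ i, x i • b i = ∑ i, y i • b i → x = y := fun x y h =>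
    (Fintype.linearIndependent_iff.mp hli (fun i => x i - y i) (by
      simp only [sub_smul, sum_sub_distrib, h, sub_self]) |> fun h => funext fun i => by
        have := h i; omega)
  have hS' : ∀ g, (S g).trace = chi (beta q) g := fun g => by
    have h := hS g
    rw [castGA_youngSymZ] at h
    have h2 := h.trans (congrFun (spechtRep_character q) g)
    simp only [chiP, chiC] at h2
    exact_mod_cast h2
  have hred : ∀ g (x : Fin d → ℤ), red S g *ᵥ (fun i => (x i : ZMod 2)) =
      fun i => ((S g *ᵥ x) i : ZMod 2) := by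
    intro g x
    funext i
    simp [red, mulVec, dotProduct]
  refine ⟨d, S, fun i => (z i : ZMod 2), hS', fun s hs => ?_, fun h0 => ?_⟩
  · rw [hred]
    have : S s *ᵥ z = z := huniq _ _ (by
      rw [← hrep, hz]
      apply_fun castGA n using fun x y h => by
        refine MonoidAlgebra.coeff_injective (Finsupp.ext fun g => ?_)
        have := congrArg (fun z : GA n => z.coeff g) h
        simpa [castGA] using this
      rw [map_mul, castGA_youngSymZ]
      simpa [castGA] using rowGroup_mul_youngSym T hs)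
    rw [this]
  · -- otherwise `b e` is divisible by two, hence so is `a b e = κ e`
    set w := ∑ π ∈ colStab T, (Perm.sign π : ℤ) • (S π *ᵥ z)
    have hw : ∀ i, (2 : ℤ) ∣ w i := by
      intro i
      rw [show (2 : ℤ) = ((2 : ℕ) : ℤ) from rfl, ← ZMod.intCast_zmod_eq_zero_iff_dvd]
      have h1 := congrFun h0 i
      simp only [hred, Finset.sum_apply, Pi.zero_apply] at h1
      simp only [w, Finset.sum_apply, Pi.smul_apply, smul_eq_mul, Int.cast_sum, Int.cast_mul]
      refine Eq.trans (sum_congr rfl fun π _ => ?_) h1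
      rcases Int.units_eq_one_or (Perm.sign π) with h | h <;> simp [h, ZMod.neg_eq_self_mod_two]
    choose v hv using hw
    obtain ⟨κ, hκ, hsq⟩ := youngSymZ_sq hq hm
    have h2 : κ • e = (2 : ℤ) • ((∑ r ∈ stab T, MonoidAlgebra.single r 1) * ∑ i, v i • b i) := by
      rw [← hsq, ← mul_smul_comm]
      conv_lhs => arg 1; rw [youngSymZ]
      rw [mul_assoc]
      congr 1
      show (∑ π ∈ colStab T, MonoidAlgebra.single π (Perm.sign π : ℤ)) * e = _
      rw [← hz, sum_mul, smul_sum]
      simp only [smul_smul, ← hv, w, Finset.sum_apply, Pi.smul_apply, sum_smul, smul_eq_mul]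
      rw [sum_comm]
      refine sum_congr rfl fun π hπ => ?_
      rw [show MonoidAlgebra.single π (Perm.sign π : ℤ) =
        (Perm.sign π : ℤ) • MonoidAlgebra.single π (1 : ℤ) by simp, smul_mul_assoc, hrep, smul_sum]
      simp only [smul_smul]
    have h3 := congrArg (fun x : MonoidAlgebra ℤ (Perm (Fin n)) => x.coeff 1) h2
    have he1 : e.coeff 1 = 1 := by
      have := coeff_youngSym_one T
      rw [← castGA_youngSymZ] at this
      simpa [castGA] using this
    simp only [MonoidAlgebra.coeff_smul, Finsupp.smul_apply, smul_eq_mul, he1, mul_one] at h3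
    exact (Int.not_even_iff_odd.mpr hκ) ⟨_, h3.trans (two_mul _)⟩

end Vale.Agent.P197.Criterion
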