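import Vale.Agent.P197.Criterion.Quotient
import Vale.Agent.P197.Criterion.Vectors
import Vale.Agent.P197.Staircase.Padding

/-!
# Forced colourings give positive Kronecker coefficients

Split the cells of a staircase into single cells shaped like the `2`-core of `ν` and pairs.  If
every pair type (unordered pair of rows) is used at most twice, and the rows of the paired cells
are forced by the type multiset among all column rearrangements, then `g(ρ, ρ, ν) > 0`.
-/

open Finset Equiv Matrix
open scoped Kronecker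

namespace Vale.Agent.P197.Criterion

open SymChar Littlewood

variable {n : ℕ}

/-- `ν` has `2`-core the staircase of side `d` and `2`-weight `k`. -/
def HasCore (v : n.Partition) (d k : ℕ) : Prop :=
  ∃ (n₀ n₁ ka kb : ℕ) (e : Fin n₀ ⊕ Fin n₁ ≃ Fin n) (A : Fin n₀ → ℤ) (B : Fin n₁ → ℤ),
    join e A B = beta v ∧ IsBeta ka A ∧ IsBeta kb B ∧ ka + kb = k ∧
      ∑ i, join e (delta n₀) (delta n₁) i = ∑ i, delta n i + (tri d : ℕ) ∧
      ∃ w : Perm (Fin n), d ≤ n ∧ join e (delta n₀) (delta n₁) = stairBeta n d ∘ w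

/-- Every partition has a core and a weight. -/
theorem exists_hasCore (v : n.Partition) : ∃ d k, HasCore v d k ∧ n = 2 * k + tri d := by
  obtain ⟨n₀, n₁, ka, kb, f, e, A, B, hj, hA, hB, hf, hn⟩ := exists_quotient _ (isBeta_beta v)
  obtain ⟨d, w, hdn, rfl, hw⟩ := exists_core e hf
  exact ⟨d, ka + kb, ⟨n₀, n₁, ka, kb, e, A, B, hj, hA, hB, rfl, hf, w, hdn, hw⟩, hn⟩

/-- The tensor product of two vectors. -/
def vecMul2 {a b : Type*} (x : a → ZMod 2) (y : b → ZMod 2) : a × b → ZMod 2 :=
  fun i => x i.1 * y i.2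

lemma kronecker_mulVec_vecMul2 {a b : Type*} [Fintype a] [Fintype b] (A : Matrix a a (ZMod 2))
    (B : Matrix b b (ZMod 2)) (x : a → ZMod 2) (y : b → ZMod 2) :
    (A ⊗ₖ B) *ᵥ vecMul2 x y = vecMul2 (A *ᵥ x) (B *ᵥ y) := by
  funext i
  simp only [mulVec, dotProduct, vecMul2, kroneckerMap_apply, Fintype.sum_prod_type, sum_mul_sum]
  exact sum_congr rfl fun a _ => sum_congr rfl fun b _ => by ring

lemma red_quotientRep {f ka kb dA dB dC : ℕ} {e : (Fin (ka + kb) × Bool) ⊕ Fin f ≃ Fin n}
    (C : Subgroup (Perm (Fin n))) (hC : ∀ g ∈ C, pairInv e * g = g * pairInv e)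
    (SA : Perm (Fin ka) →* Matrix (Fin dA) (Fin dA) ℤ)
    (SB : Perm (Fin kb) →* Matrix (Fin dB) (Fin dB) ℤ)
    (SC : Perm (Fin f) →* Matrix (Fin dC) (Fin dC) ℤ)
    [Fintype (Perm (Fin (ka + kb)) ⧸ (youngHom ka kb).range)]
    [DecidableEq (Perm (Fin (ka + kb)) ⧸ (youngHom ka kb).range)] (c : C) :
    red (quotientRep C hC SA SB SC) c =
      red (induced (youngHom ka kb).range (youngRep SA SB)) (centraliserHom C hC c).1 ⊗ₖ
        red SC (centraliserHom C hC c).2 := by
  ext i j
  simp [red, quotientRep]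

lemma dim_pos {k m d : ℕ} {A : Fin m → ℤ} (hA : IsBeta k A)
    (S : Perm (Fin k) →* Matrix (Fin d) (Fin d) ℤ) (hS : ∀ g, (S g).trace = chi A g) : 0 < d := by
  have h := chi_one_pos k (α := Fin k) A hA (Fintype.card_fin k)
  rw [← hS, map_one, Matrix.trace_one, Fintype.card_fin] at h
  exact_mod_cast h

/-- The type of a pair after rearranging by `π`. -/
def pairType {k f : ℕ} (T : Fin n → Fin n) (e : (Fin k × Bool) ⊕ Fin f ≃ Fin n)
    (π : Perm (Fin n)) (x : Fin k) : Sym2 (Fin n) :=
  s(T (π (e (.inl (x, false)))), T (π (e (.inl (x, true)))))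

lemma pairType_comp {k f : ℕ} {e : (Fin k × Bool) ⊕ Fin f ≃ Fin n} {c : Perm (Fin n)}
    (hc : pairInv e * c = c * pairInv e) (T : Fin n → Fin n) (π : Perm (Fin n)) (x : Fin k) :
    pairType T e (π * c) x = pairType T e π (pairImage e c x) := by
  obtain ⟨b, hb⟩ := (centraliser_apply hc).1 x false
  obtain ⟨b', hb'⟩ := (centraliser_apply hc).1 x true
  have hne : b ≠ b' := fun h => by
    have := c.injective (hb.trans (by rw [h]; exact hb'.symm))
    simpa using e.injective this
  simp only [pairType, Perm.mul_apply, hb, hb']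
  cases b <;> cases b' <;> first | exact absurd rfl hne | rfl | exact Sym2.eq_swap

/-- The type stabiliser. -/
def typeStab {k : ℕ} {X : Type*} (ty : Fin k → X) : Subgroup (Perm (Fin k)) where
  carrier := {σ | ty ∘ σ = ty}
  one_mem' := rfl
  mul_mem' {a b} ha hb := by
    show ty ∘ (a * b) = ty
    rw [Perm.coe_mul, ← Function.comp_assoc, (ha : ty ∘ a = ty), (hb : ty ∘ b = ty)]
  inv_mem' {a} ha := by
    funext x
    have := congrFun (ha : ty ∘ a = ty) (a⁻¹ x)
    simpa using this.symm

lemma isPGroup_typeStab {k : ℕ} {X : Type*} [DecidableEq X] (ty : Fin k → X)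
    (h : ∀ t, #{x | ty x = t} ≤ 2) : IsPGroup 2 (typeStab ty) := by
  intro σ
  refine ⟨1, Subtype.ext (Equiv.ext fun x => ?_)⟩
  rw [Subgroup.coe_pow, pow_one, pow_two, Perm.mul_apply, Subgroup.coe_one, Perm.one_apply]
  by_contra hne
  set σ' := (σ : Perm (Fin k))
  have h1 : ∀ y, ty (σ' y) = ty y := fun y => congrFun σ.2 y
  have h2 : σ' x ≠ x := fun h3 => hne (by rw [h3, h3])
  have h3 : σ' (σ' x) ≠ σ' x := fun h4 => h2 (σ'.injective h4)
  have hsub : ({x, σ' x, σ' (σ' x)} : Finset (Fin k)) ⊆ ({y | ty y = ty x} : Finset (Fin k)) := by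
    intro y hy
    simp only [mem_insert, mem_singleton] at hy
    simp only [mem_filter, mem_univ, true_and]
    rcases hy with rfl | rfl | rfl <;> simp [h1]
  have := (card_le_card hsub).trans (h (ty x))
  rw [card_insert_of_notMem (by simp [Ne.symm h2, Ne.symm hne]),
    card_insert_of_notMem (by simp [Ne.symm h3]), card_singleton] at this
  omega

/-- **Forced colourings.**  `e` splits the cells of the staircase tableau into `k` pairs and `tri d`
single cells; the single cells are coloured like the core staircase and share columns like it; each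
pair type occurs at most twice; and among column rearrangements only those fixing the rows of all
paired cells keep the multiset of pair types. -/
theorem kronecker_pos_of_forced {m k d : ℕ} {r v : n.Partition} (hr : ∀ i, row r i = m - i)
    (hm : m ≤ n) (hv : HasCore v d k) (e : (Fin k × Bool) ⊕ Fin (tri d) ≃ Fin n)
    (hrow : ∀ y, (tableau r (e (.inr y)) : ℕ) = tableau (staircase d) y)
    (hcol : ∀ y y', colOf (tableau r) (e (.inr y)) = colOf (tableau r) (e (.inr y')) ↔
      colOf (tableau (staircase d)) y = colOf (tableau (staircase d)) y')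
    (hmult : ∀ t, #{x | pairType (tableau r) e 1 x = t} ≤ 2)
    (hforced : ∀ π ∈ colStab (tableau r),
      (∀ t, #{x | pairType (tableau r) e π x = t} = #{x | pairType (tableau r) e 1 x = t}) →
        ∀ p, tableau r (π (e (.inl p))) = tableau r (e (.inl p))) :
    0 < kronecker r r v := by
  obtain ⟨n₀, n₁, ka, kb, e', A, B, hj, hA, hB, rfl, -, wc, hdn, hwc⟩ := hv
  obtain ⟨dA, SA, hSA⟩ := exists_form A hA
  obtain ⟨dB, SB, hSB⟩ := exists_form B hB
  obtain ⟨dC, SC, u, hSC, hu, hub⟩ := exists_core_vector (row_staircase d) (le_tri d)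
  set T := tableau r
  set Td := tableau (staircase d)
  have hSC' : ∀ g, (SC g).trace =
      (Perm.sign wc : ℤ) * chi (join e' (delta n₀) (delta n₁)) g := by
    intro g
    rw [hwc, chi_perm, chi_stairBeta d g n hdn, ← chi_stairBeta d g (tri d) (le_tri d),
      stairBeta_eq_beta, ← hSC, ← mul_assoc]
    rcases Int.units_eq_one_or (Perm.sign wc) with h | h <;> rw [h] <;> simp
  let C : Subgroup (Perm (Fin n)) := Subgroup.centralizer {pairInv e}
  have hCmem : ∀ g, g ∈ C ↔ pairInv e * g = g * pairInv e := fun g => by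
    simp [C, Subgroup.mem_centralizer_iff]
  have hC : ∀ g ∈ C, pairInv e * g = g * pairInv e := fun g hg => (hCmem g).mp hg
  have hp : ∀ (c : C) x, (centraliserHom C hC c).1 x = pairImage e c x := fun c x => rfl
  have hs : ∀ (c : C) y, (centraliserHom C hC c).2 y = singleImage e c y := fun c y => rfl
  have hne : Nonempty ((Perm (Fin (ka + kb)) ⧸ (youngHom ka kb).range) × (Fin dA × Fin dB)) :=
    ⟨(QuotientGroup.mk 1, ⟨0, dim_pos hA SA hSA⟩, ⟨0, dim_pos hB SB hSB⟩)⟩
  letI : DecidableEq (Perm (Fin (ka + kb)) ⧸ (youngHom ka kb).range) := Classical.decEq _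
  letI : Fintype (Perm (Fin (ka + kb)) ⧸ (youngHom ka kb).range) := Fintype.ofFinite _
  obtain ⟨wk, hwk0, hwk⟩ := exists_fixed_vector (typeStab (pairType T e 1))
    (isPGroup_typeStab _ hmult) (red (induced (youngHom ka kb).range (youngRep SA SB)))
  classical
  set w₀ := vecMul2 wk u
  set Wb := red (quotientRep C hC SA SB SC)
  -- the vector is fixed by the stabiliser of `T`
  have hstab : ∀ c : C, T ∘ ((c : Perm (Fin n))) = T → Wb c *ᵥ w₀ = w₀ := by
    intro c hc
    rw [red_quotientRep, kronecker_mulVec_vecMul2]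
    congr 1
    · refine hwk _ (funext fun x => ?_)
      show pairType T e 1 ((centraliserHom C hC c).1 x) = _
      rw [hp, ← pairType_comp (hC _ c.2), one_mul]
      simp only [pairType, Perm.one_apply]
      rw [show T (c.1 (e (.inl (x, false)))) = T (e (.inl (x, false))) from congrFun hc _,
        show T (c.1 (e (.inl (x, true)))) = T (e (.inl (x, true))) from congrFun hc _]
    · refine hu _ (funext fun y => Fin.ext ?_)
      show (Td ((centraliserHom C hC c).2 y) : ℕ) = Td y
      rw [hs, ← hrow, ← hrow, ← (centraliser_apply (hC _ c.2)).2]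
      exact congrArg Fin.val (congrFun hc _)
  let F : (Fin n → Fin n) → _ := fun g =>
    if h : ∃ c : C, g = T ∘ ⇑((c : Perm (Fin n))⁻¹) then Wb h.choose *ᵥ w₀ else 0
  have hFc : ∀ c : C, F (T ∘ ⇑((c : Perm (Fin n))⁻¹)) = Wb c *ᵥ w₀ := by
    intro c
    have h : ∃ c' : C, T ∘ ⇑((c : Perm (Fin n))⁻¹) = T ∘ ⇑((c' : Perm (Fin n))⁻¹) := ⟨c, rfl⟩
    simp only [F, dif_pos h]
    have h1 : T ∘ ⇑((c⁻¹ * h.choose : C) : Perm (Fin n)) = T := by
      rw [Subgroup.coe_mul, Subgroup.coe_inv, Perm.coe_mul, ← Function.comp_assoc]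
      refine (congrArg (· ∘ ⇑(h.choose : Perm (Fin n))) h.choose_spec).trans ?_
      show (T ∘ _) ∘ _ = T
      rw [Function.comp_assoc, ← Perm.coe_mul, inv_mul_cancel, Perm.coe_one, Function.comp_id]
    have h2 := hstab _ h1
    rw [map_mul, ← mulVec_mulVec] at h2
    have h3 := congrArg (Wb c *ᵥ ·) h2
    rwa [mulVec_mulVec, ← map_mul, mul_inv_cancel, map_one, one_mulVec] at h3
  refine kronecker_pos_of_quotient hr hm e e' hj hA hB SA hSA SB hSB SC _ hSC' C hCmem F ?_ ?_
  · intro c g _
    by_cases h : ∃ c' : C, g = T ∘ ⇑((c' : Perm (Fin n))⁻¹)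
    · obtain ⟨c', rfl⟩ := h
      rw [Function.comp_assoc, ← Perm.coe_mul, ← _root_.mul_inv_rev, ← Subgroup.coe_mul, hFc, hFc,
        map_mul, mulVec_mulVec]
    · have h' : ¬ ∃ c' : C, g ∘ ⇑((c : Perm (Fin n))⁻¹) = T ∘ ⇑((c' : Perm (Fin n))⁻¹) := by
        rintro ⟨c', hc'⟩
        refine h ⟨c⁻¹ * c', ?_⟩
        rw [Subgroup.coe_mul, Subgroup.coe_inv, _root_.mul_inv_rev, inv_inv, Perm.coe_mul,
          ← Function.comp_assoc, ← hc', Function.comp_assoc, ← Perm.coe_mul, inv_mul_cancel,
          Perm.coe_one, Function.comp_id]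
      have e1 : F g = 0 := dif_neg h
      have e2 : F (g ∘ ⇑((c : Perm (Fin n))⁻¹)) = 0 := dif_neg h'
      rw [e1, e2, mulVec_zero]
  · let ext : Perm (Fin (tri d)) → Perm (Fin n) := fun s =>
      e.permCongr (Perm.sumCongr (1 : Perm (Fin (ka + kb) × Bool)) s)
    have hext_l : ∀ s p, ext s (e (.inl p)) = e (.inl p) := fun s p => by
      simp [ext, Equiv.permCongr_apply]
    have hext_r : ∀ s y, ext s (e (.inr y)) = e (.inr (s y)) := fun s y => by
      simp [ext, Equiv.permCongr_apply]
    have hextC : ∀ s, ext s ∈ C := fun s => by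
      rw [hCmem]
      refine Equiv.ext fun z => ?_
      obtain ⟨z, rfl⟩ := e.surjective z
      rcases z with ⟨x, b⟩ | y <;>
        simp only [Perm.mul_apply, hext_l, hext_r, pairInv_inl, pairInv_inr]
    have hextinv : ∀ s, (ext s⁻¹)⁻¹ = ext s := fun s => by
      rw [inv_eq_iff_mul_eq_one]
      refine Equiv.ext fun z => ?_
      obtain ⟨z, rfl⟩ := e.surjective z
      rcases z with p | y <;> simp only [Perm.mul_apply, hext_l, hext_r] <;> simp
    have key : ∀ π ∈ colStab T, F (T ∘ π) ≠ 0 → ∃ s ∈ colStab Td, ext s = π := by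
      intro π hπ hFne
      have hc : ∃ c : C, T ∘ π = T ∘ ⇑((c : Perm (Fin n))⁻¹) := by
        by_contra hc
        exact hFne (dif_neg hc)
      obtain ⟨c, hc⟩ := hc
      have hπ' : ∀ z, colOf T (π z) = colOf T z := fun z => by
        simp only [colStab, mem_filter, mem_univ, true_and] at hπ
        exact congrFun hπ z
      have hci : pairInv e * ((c⁻¹ : C) : Perm (Fin n)) = (c⁻¹ : C) * pairInv e := hC _ (c⁻¹).2
      have hty : ∀ x, pairType T e π x =
          pairType T e 1 ((centraliserHom C hC c⁻¹).1 x) := fun x => by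
        rw [hp, ← pairType_comp hci, one_mul]
        simp only [pairType]
        rw [show ∀ z, T (π z) = T ((((c⁻¹ : C) : Perm (Fin n))) z) from fun z => congrFun hc z,
          show ∀ z, T (π z) = T ((((c⁻¹ : C) : Perm (Fin n))) z) from fun z => congrFun hc z]
      have hfix : ∀ p, π (e (.inl p)) = e (.inl p) := fun p =>
        row_col_injective T (hforced π hπ (fun t =>
          card_equiv (centraliserHom C hC c⁻¹).1 (by simp [hty])) p) (hπ' _)
      obtain ⟨⟨p', s⟩, hps⟩ : e.symm.permCongr π ∈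
          (Perm.sumCongrHom (Fin (ka + kb) × Bool) (Fin (tri d))).range := by
        refine Perm.mem_sumCongrHom_range_of_perm_mapsTo_inl ?_
        rintro _ ⟨p, rfl⟩
        exact ⟨p, by simp [Equiv.permCongr_apply, hfix]⟩
      have hπe : ∀ z, π (e z) = e (Sum.map p' s z) := fun z => by
        have := Equiv.Perm.congr_fun hps z
        simp [Equiv.permCongr_apply] at this
        rw [this, Equiv.apply_symm_apply]
      have hπr : ∀ y, π (e (.inr y)) = e (.inr (s y)) := fun y => hπe _
      refine ⟨s, ?_, Equiv.ext fun z => ?_⟩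
      · simp only [colStab, mem_filter, mem_univ, true_and]
        funext y
        exact (hcol _ _).mp (by rw [← hπr]; exact hπ' _)
      · obtain ⟨z, rfl⟩ := e.surjective z
        rcases z with p | y
        · rw [hext_l, hfix]
        · rw [hext_r, hπr]
    have hextcol : ∀ s ∈ colStab Td, ext s ∈ colStab T := by
      intro s hs'
      simp only [colStab, mem_filter, mem_univ, true_and] at hs' ⊢
      funext z
      obtain ⟨z, rfl⟩ := e.surjective z
      rcases z with p | y
      · simp only [Function.comp_apply, hext_l]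
      · simp only [Function.comp_apply, hext_r]
        exact (hcol _ _).mpr (congrFun hs' y)
    have hextinj : Function.Injective ext := fun s s' h => Equiv.ext fun y => by
      have := Equiv.Perm.congr_fun h (e (.inr y))
      rw [hext_r, hext_r] at this
      exact Sum.inr_injective (e.injective this)
    have hval : ∀ s, F (T ∘ ext s) = vecMul2 wk (red SC s⁻¹ *ᵥ u) := by
      intro s
      have h := hFc ⟨ext s⁻¹, hextC _⟩
      rw [hextinv] at h
      rw [h, red_quotientRep, kronecker_mulVec_vecMul2]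
      have h1 : (centraliserHom C hC ⟨ext s⁻¹, hextC _⟩).1 = 1 := by
        refine Equiv.ext fun x => ?_
        rw [hp]
        simp [pairImage, hext_l]
      have h2 : (centraliserHom C hC ⟨ext s⁻¹, hextC _⟩).2 = s⁻¹ := by
        refine Equiv.ext fun y => ?_
        rw [hs]
        simp [singleImage, hext_r]
      rw [h1, h2, map_one, one_mulVec]
    have hsum : ∑ π ∈ colStab T, F (T ∘ π) = ∑ s ∈ colStab Td, F (T ∘ ext s) := by
      rw [← Finset.sum_image (f := fun π : Perm (Fin n) => F (T ∘ ⇑π)) (g := ext) fun s _ s' _ h => hextinj h]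
      symm
      refine sum_subset (fun π hπ => ?_) fun π hπ hnot => ?_
      · obtain ⟨s, hs', rfl⟩ := mem_image.mp hπ
        exact hextcol s hs'
      · by_contra h
        obtain ⟨s, hs', rfl⟩ := key π hπ h
        exact hnot (mem_image_of_mem _ hs')
    rw [hsum, sum_congr rfl fun s _ => hval s]
    have hinvset : ∑ s ∈ colStab Td, red SC s⁻¹ *ᵥ u = ∑ s ∈ colStab Td, red SC s *ᵥ u := by
      refine Finset.sum_equiv (Equiv.inv _) (fun s => ?_) fun s _ => rfl
      simp only [colStab, mem_filter, mem_univ, true_and, Equiv.inv_apply]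
      constructor <;> intro h <;> funext y
      · simpa using (congrFun h (s⁻¹ y)).symm
      · simpa using (congrFun h (s y)).symm
    intro h0
    obtain ⟨i, hi⟩ := Function.ne_iff.mp hwk0
    obtain ⟨j, hjne⟩ := Function.ne_iff.mp hub
    refine hjne ?_
    have h1 := congrFun h0 (i, j)
    simp only [Finset.sum_apply, vecMul2, Pi.zero_apply, ← mul_sum] at h1
    rcases mul_eq_zero.mp h1 with h2 | h2
    · exact absurd h2 hi
    · rw [← hinvset, Finset.sum_apply]; exact h2

end Vale.Agent.P197.Criterion
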