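import Vale.Agent.P197.Criterion.Detect
import Vale.Agent.P197.Criterion.Setup

/-!
# Idempotents of the centraliser of an involution

For an idempotent `e` of `(ℤ/2^N)[C]`: the weighted sum of `chi` over `τ C` only sees colourings
fixed by `τ`, and if it is nonzero then `e` does not kill the homology of `τ` on the reduction of
the representation.
-/

open Finset Equiv Matrix

namespace Vale.Agent.P197.Criterion

open SymChar

variable {α : Type} [Fintype α] [DecidableEq α] {N : ℕ}

/-- The reduction modulo `2` of an element of `(ℤ/2^N)[C]` acting through a matrix representation. -/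
noncomputable def algAct {G : Type*} [Group G] [Fintype G] {ι : Type*} [Fintype ι] [DecidableEq ι]
    (hN : 0 < N) (S : G →* Matrix ι ι (ZMod 2)) (e : MonoidAlgebra (ZMod (2 ^ N)) G) :
    Matrix ι ι (ZMod 2) :=
  ∑ g, red2 hN (e.coeff g) • S g

lemma lift_apply_sum {G : Type*} [Group G] [Fintype G] {R : Type*} [CommRing R] {A : Type*}
    [Semiring A] [Algebra R A] (F : G →* A) (e : MonoidAlgebra R G) :
    MonoidAlgebra.lift R A G F e = ∑ g, e.coeff g • F g := by
  rw [MonoidAlgebra.lift_apply]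
  exact Finsupp.sum_fintype _ _ fun g => zero_smul _ _

/-- A general trace consequence: `e` idempotent, `T` an involution in the centre. -/
theorem sum_trace_eq_zero {G : Type*} [Group G] [Fintype G] {ι : Type*} [Fintype ι] [DecidableEq ι]
    (hN : 0 < N) (F : G →* Matrix ι ι (ZMod (2 ^ N))) {e : MonoidAlgebra (ZMod (2 ^ N)) G}
    (he : IsIdempotentElem e) {τ : G} (hτ : τ * τ = 1) (hc : ∀ g, τ * g = g * τ)
    (hex : ∀ x, algAct hN ((red2 hN).mapMatrix.toMonoidHom.comp F) e *ᵥ x = x →
      (red2 hN).mapMatrix (F τ) *ᵥ x = x →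
      ∃ y, x = y + (red2 hN).mapMatrix (F τ) *ᵥ y) :
    ∑ g, e.coeff g * (F (τ * g)).trace = 0 := by
  set E := MonoidAlgebra.lift (ZMod (2 ^ N)) (Matrix ι ι (ZMod (2 ^ N))) G F e
  have hE : E = ∑ g, e.coeff g • F g := lift_apply_sum F e
  have hsum : ∑ g, e.coeff g * (F (τ * g)).trace = (F τ * E).trace := by
    simp [hE, Matrix.mul_sum, Matrix.trace_sum, Matrix.trace_smul]
  rw [hsum]
  refine trace_eq_zero_of_homology hN ?_ ?_ ?_ ?_
  · rw [← map_mul, he.eq]
  · rw [← map_mul, hτ, map_one]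
  · simp only [hE, Matrix.mul_sum, Matrix.sum_mul, mul_smul_comm, smul_mul_assoc, ← map_mul, hc]
  · intro x h1 h2
    refine hex x ?_ h2
    convert h1 using 2
    ext i j
    simp only [algAct, hE, Matrix.sum_apply, Matrix.map_apply, map_sum, Matrix.smul_apply,
      smul_eq_mul, map_mul, RingHom.mapMatrix_apply, RingHom.toMonoidHom_eq_coe,
      MonoidHom.coe_comp, MonoidHom.coe_coe, Function.comp_apply]

/-- If the weighted trace is nonzero, `e` does not kill the homology of `τ`. -/
theorem exists_homology {G : Type*} [Group G] [Fintype G] {ι : Type*} [Fintype ι] [DecidableEq ι]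
    (hN : 0 < N) (S : G →* Matrix ι ι ℤ) {e : MonoidAlgebra (ZMod (2 ^ N)) G}
    (he : IsIdempotentElem e) {τ : G} (hτ : τ * τ = 1) (hc : ∀ g, τ * g = g * τ)
    (hne : ∑ g, e.coeff g * ((S (τ * g)).trace : ZMod (2 ^ N)) ≠ 0) :
    ∃ w, algAct hN (red S) e *ᵥ w = w ∧ red S τ *ᵥ w = w ∧
      w ∉ LinearMap.range (LinearMap.id + (red S τ).mulVecLin) := by
  let F : G →* Matrix ι ι (ZMod (2 ^ N)) :=
    ((Int.castRingHom (ZMod (2 ^ N))).mapMatrix).toMonoidHom.comp S
  have hred : (red2 hN).mapMatrix.toMonoidHom.comp F = red S := by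
    ext g i j
    simp [F, red, red2]
  by_contra hcon
  push Not at hcon
  refine hne ?_
  have htr : ∀ g, (F g).trace = ((S g).trace : ZMod (2 ^ N)) := fun g => by
    simp [F, Matrix.trace]
  simp only [← htr]
  refine sum_trace_eq_zero hN F he hτ hc fun x h1 h2 => ?_
  rw [hred] at h1
  have h3 : (red2 hN).mapMatrix (F τ) = red S τ := DFunLike.congr_fun hred τ
  rw [h3] at h2 ⊢
  obtain ⟨y, hy⟩ := hcon x h1 h2
  exact ⟨y, hy.symm⟩

/-- Only `τ`-fixed colourings contribute to `∑ e(c) chi a (τ c)`. -/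
theorem sum_chi_tau (hN : 0 < N) {K : ℕ} (a : Fin K → ℤ) (C : Subgroup (Perm α))
    [DecidablePred (· ∈ C)] {τ : Perm α} (hτ : τ * τ = 1) (hτC : τ ∈ C)
    (hc : ∀ g ∈ C, τ * g = g * τ) {e : MonoidAlgebra (ZMod (2 ^ N)) C}
    (he : IsIdempotentElem e) :
    ∑ c : C, e.coeff c * (chi a (τ * (c : Perm α)) : ZMod (2 ^ N)) =
      ∑ f ∈ fixedCol K τ, (eps a (cnt f) : ZMod (2 ^ N)) *
        ∑ c : C, if f ∘ (c : Perm α) = f then e.coeff c else 0 := by
  classical
  have hexp : ∀ c : C, e.coeff c * (chi a (τ * (c : Perm α)) : ZMod (2 ^ N)) =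
      ∑ f : α → Fin K, if f ∘ ⇑(τ * (c : Perm α)) = f then
        e.coeff c * (eps a (cnt f) : ZMod (2 ^ N)) else 0 := by
    intro c
    simp only [chi, fixedCol, Int.cast_sum, mul_sum, sum_filter]
    refine sum_congr rfl fun f _ => ?_
    split_ifs <;> simp
  rw [sum_congr rfl fun c _ => hexp c, sum_comm,
    ← sum_filter_add_sum_filter_not univ fun f : α → Fin K => f ∘ τ = f]
  have hfix : ∑ f ∈ ({f | f ∘ τ = f} : Finset (α → Fin K)),
      (∑ c : C, if f ∘ ⇑(τ * (c : Perm α)) = f then
        e.coeff c * (eps a (cnt f) : ZMod (2 ^ N)) else 0) =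
      ∑ f ∈ fixedCol K τ, (eps a (cnt f) : ZMod (2 ^ N)) *
        ∑ c : C, if f ∘ (c : Perm α) = f then e.coeff c else 0 := by
    refine sum_congr rfl fun f hf => ?_
    rw [mem_fixedCol] at hf
    rw [mul_sum]
    refine sum_congr rfl fun c _ => ?_
    rw [Perm.coe_mul, ← Function.comp_assoc, hf, mul_ite, mul_zero, mul_comm]
  rw [hfix, add_eq_left, ← sum_fiberwise_of_maps_to
    (g := fun f : α → Fin K => cnt f) (t := piAntidiag (univ : Finset (Fin K)) (Fintype.card α))
    (fun f _ => by simp [sum_cnt])]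
  refine sum_eq_zero fun k _ => ?_
  let X := {f : α → Fin K // cnt f = k ∧ f ∘ τ ≠ f}
  have hX : ∀ (c : C) (f : X), cnt (f.1 ∘ ((c : Perm α))) = k ∧
      (f.1 ∘ (c : Perm α)) ∘ τ ≠ f.1 ∘ (c : Perm α) := by
    intro c f
    refine ⟨(cnt_comp_equiv f.1 _).trans f.2.1, fun h => f.2.2 ?_⟩
    have h1 : f.1 ∘ ⇑((c : Perm α) * τ) = f.1 ∘ (c : Perm α) := h
    rw [← hc c c.2, Perm.coe_mul, ← Function.comp_assoc] at h1
    exact (c : Perm α).surjective.injective_comp_right h1
  let act : C → X → X := fun c f => ⟨f.1 ∘ (c : Perm α), hX c f⟩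
  let F : C →* Matrix X X (ZMod (2 ^ N)) :=
    { toFun := fun c => Matrix.of fun f f' => if act c f = f' then 1 else 0
      map_one' := by ext f f'; simp [Matrix.one_apply, act, Subtype.ext_iff]
      map_mul' := fun c c' => by
        ext f f'
        simp only [Matrix.mul_apply, Matrix.of_apply]
        rw [sum_eq_single (act c f)]
        · rw [if_pos rfl, one_mul]
          exact if_congr (by simp [act, Function.comp_assoc]) rfl rfl
        · intro b _ hb; rw [if_neg (Ne.symm hb), zero_mul]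
        · simp }
  let t : C := ⟨τ, hτC⟩
  have hT : ∀ (y : X → ZMod 2) (f : X),
      ((red2 hN).mapMatrix (F t) *ᵥ y) f = y (act t f) := by
    intro y f
    simp only [Matrix.mulVec, dotProduct, F, RingHom.mapMatrix_apply, Matrix.map_apply,
      MonoidHom.coe_mk, OneHom.coe_mk, Matrix.of_apply, apply_ite (red2 hN), map_one, map_zero, ite_mul, one_mul, zero_mul]
    rw [Fintype.sum_eq_single (act t f) fun x hx => if_neg (Ne.symm hx), if_pos rfl]
  have hinv : ∀ f, act t (act t f) = f := fun f => Subtype.ext (by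
    show (f.1 ∘ τ) ∘ τ = f.1
    rw [Function.comp_assoc, ← Perm.coe_mul, hτ]; rfl)
  have h0 : ∑ c : C, e.coeff c * (F (t * c)).trace = 0 := by
    refine sum_trace_eq_zero hN F he (Subtype.ext hτ) (fun g => Subtype.ext (hc g g.2)) ?_
    intro x _ hx
    let ord := Fintype.equivFin X
    refine ⟨fun f => if ord f < ord (act t f) then x f else 0, funext fun f => ?_⟩
    rw [Pi.add_apply, hT, hinv]
    have hne : ord (act t f) ≠ ord f := fun h => f.2.2 (congrArg Subtype.val (ord.injective h))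
    rcases lt_or_gt_of_ne hne with h | h
    · rw [if_neg (not_lt.mpr h.le), if_pos h, zero_add]
      exact (congrFun hx f).symm.trans (hT x f)
    · rw [if_pos h, if_neg (not_lt.mpr h.le), add_zero]
  rw [filter_filter, sum_comm]
  have htr : ∀ c : C, (F (t * c)).trace =
      ∑ f : X, if f.1 ∘ ⇑(τ * (c : Perm α)) = f.1 then 1 else 0 := by
    intro c
    simp [F, Matrix.trace, act, t]
    exact sum_congr rfl fun f _ => if_congr Subtype.ext_iff rfl rfl
  simp only [htr] at h0
  have h1 := congrArg ((eps a k : ZMod (2 ^ N)) * ·) h0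
  simp only [mul_zero, mul_sum] at h1
  refine Eq.trans (sum_congr rfl fun c _ => ?_) h1
  rw [Finset.sum_subtype (p := fun f : α → Fin K => cnt f = k ∧ f ∘ τ ≠ f) _
    (fun f => by simp [and_comm])]
  refine sum_congr rfl fun f _ => ?_
  rw [f.2.1]
  split_ifs <;> ring

end Vale.Agent.P197.Criterion
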