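import Vale.Agent.P197.Criterion
import Vale.Agent.P197.Criterion.Tau

/-!
# The criterion as a `Hom` condition

`g(ρ, ρ, ν) > 0` as soon as, for some involution `τ` with centraliser `C`, the staircase module
modulo `2` has a nonzero `C`-map to the reduction of a lattice whose character is `±` the part of
`c ↦ chi_ν (τ c)` coming from `τ`-fixed colourings.
-/

open Finset Equiv Matrix

namespace Vale.Agent.P197.Criterion

open SymChar

section General

variable {G : Type*} [Group G] [Fintype G] [DecidableEq G]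
variable {d : Type*} [Fintype d] [DecidableEq d] (R : G →* Matrix d d (ZMod 2))
variable (C : Subgroup G) [DecidablePred (· ∈ C)]

/-- `∑_{c ∈ C} coef c • c`. -/
noncomputable def coefElem (φ v : d → ZMod 2) : MonoidAlgebra (ZMod 2) C :=
  ∑ c : C, MonoidAlgebra.single c (coef R φ v c)

/-- The left ideal spanned by all `coefElem`. -/
noncomputable def coefIdeal : Submodule (ZMod 2) (MonoidAlgebra (ZMod 2) C) :=
  Submodule.span (ZMod 2) (Set.range fun p : (d → ZMod 2) × (d → ZMod 2) => coefElem R C p.1 p.2)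

lemma single_mul_coefElem (h : C) (φ v : d → ZMod 2) :
    MonoidAlgebra.single h 1 * coefElem R C φ v = coefElem R C φ (R h *ᵥ v) := by
  rw [coefElem, mul_sum, coefElem]
  refine Fintype.sum_equiv (Equiv.mulLeft h) _ _ fun c => ?_
  rw [MonoidAlgebra.single_mul_single, one_mul]
  simp only [coef, Equiv.coe_mulLeft, Subgroup.coe_mul]
  rw [mulVec_mulVec, ← map_mul, _root_.mul_inv_rev, inv_mul_cancel_right]

lemma mul_mem_coefIdeal (y : MonoidAlgebra (ZMod 2) C) {x : MonoidAlgebra (ZMod 2) C}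
    (hx : x ∈ coefIdeal R C) : y * x ∈ coefIdeal R C := by
  induction hx using Submodule.span_induction with
  | mem x hx =>
    obtain ⟨p, rfl⟩ := hx
    induction y using MonoidAlgebra.induction_on with
    | of h =>
      rw [MonoidAlgebra.of_apply, single_mul_coefElem]
      exact Submodule.subset_span ⟨(p.1, R h *ᵥ p.2), rfl⟩
    | add y z hy hz => rw [add_mul]; exact add_mem hy hz
    | smul c y hy => rw [smul_mul_assoc]; exact Submodule.smul_mem _ c hy
  | zero => simp
  | add x z _ _ hx hz => rw [mul_add]; exact add_mem hx hz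
  | smul c x _ hx => rw [mul_smul_comm]; exact Submodule.smul_mem _ c hx

variable {R C}

/-- The ideal kills the homology. -/
lemma Annihilates.coefIdeal_homology {e : Type*} [Fintype e] [DecidableEq e]
    {S : G →* Matrix e e (ZMod 2)} (h : Annihilates R S) {τ : G} (hτ : τ * τ = 1)
    (hC : ∀ g, g ∈ C ↔ τ * g = g * τ) {x : MonoidAlgebra (ZMod 2) C} (hx : x ∈ coefIdeal R C)
    (w : e → ZMod 2) (hw : S τ *ᵥ w = w) :
    MonoidAlgebra.lift (ZMod 2) (Matrix e e (ZMod 2)) C (S.comp C.subtype) x *ᵥ w ∈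
      LinearMap.range (LinearMap.id + (S τ).mulVecLin) := by
  induction hx using Submodule.span_induction with
  | mem x hx =>
    obtain ⟨p, rfl⟩ := hx
    have h1 := h.homology hτ p.1 p.2 w hw
    rw [Finset.sum_subtype (p := fun g => g ∈ C) _ (fun g => by simp [hC])] at h1
    simp only [coefElem, map_sum, MonoidAlgebra.lift_single, sum_mulVec, smul_mulVec]
    exact h1
  | zero => simp
  | add x z _ _ hx hz => rw [map_add, add_mulVec]; exact add_mem hx hz
  | smul c x _ hx => rw [map_smul, smul_mulVec]; exact Submodule.smul_mem _ c hx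

/-- A nonzero `C`-map out of `R` makes some element of the ideal act non-nilpotently. -/
theorem exists_not_nilpotent {θ : Matrix d d (ZMod 2)} (hθ : ∑ g, R g * θ * R g⁻¹ = 1)
    {ι : Type*} [Fintype ι] [DecidableEq ι] (W : C →* Matrix ι ι (ZMod 2))
    (f : (d → ZMod 2) →ₗ[ZMod 2] (ι → ZMod 2))
    (hf : ∀ (c : C) x, f (R c *ᵥ x) = W c *ᵥ f x) (hf0 : f ≠ 0) :
    ∃ x ∈ coefIdeal R C, ∀ k : ℕ,
      MonoidAlgebra.lift (ZMod 2) (Matrix ι ι (ZMod 2)) C W x ^ k ≠ 0 := by
  classical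
  let act := MonoidAlgebra.lift (ZMod 2) (Matrix ι ι (ZMod 2)) C W
  let Stable : Submodule (ZMod 2) (ι → ZMod 2) → Prop := fun U => ∀ c : C, ∀ w ∈ U, W c *ᵥ w ∈ U
  have hact : ∀ U, Stable U → ∀ y, ∀ w ∈ U, act y *ᵥ w ∈ U := by
    intro U hU y w hw
    induction y using MonoidAlgebra.induction_on with
    | of h => simpa [act] using hU h w hw
    | add y z hy hz => rw [map_add, add_mulVec]; exact add_mem hy hz
    | smul c y hy => rw [map_smul, smul_mulVec]; exact Submodule.smul_mem _ c hy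
  have hP : Stable (LinearMap.range f) := by
    rintro c _ ⟨x, rfl⟩
    exact ⟨R c *ᵥ x, hf c x⟩
  have : Fintype (Submodule (ZMod 2) (ι → ZMod 2)) := Fintype.ofFinite _
  have hbot : (⊥ : Submodule (ZMod 2) (ι → ZMod 2)) < LinearMap.range f :=
    bot_lt_iff_ne_bot.mpr fun h => hf0 (LinearMap.range_eq_bot.mp h)
  obtain ⟨U, hU⟩ := Finset.exists_maximal
    (s := ({U | Stable U ∧ U < LinearMap.range f} : Finset (Submodule (ZMod 2) (ι → ZMod 2))))
    ⟨⊥, mem_filter.mpr ⟨mem_univ _, fun c w hw => by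
      rw [Submodule.mem_bot] at hw ⊢; rw [hw, mulVec_zero], hbot⟩⟩
  obtain ⟨⟨-, hUs, hUlt⟩, hmax⟩ : (U ∈ univ ∧ Stable U ∧ U < LinearMap.range f) ∧ _ :=
    ⟨by simpa using hU.1, hU.2⟩
  obtain ⟨θ', hform⟩ := exists_coef_formula hθ C
  have hf' : ∀ (c : C) x, f (R c *ᵥ x) = ((Matrix.toLinAlgEquiv').toAlgHom.toRingHom.toMonoidHom.comp W) c (f x) :=
    fun c x => by rw [hf c x]; rfl
  obtain ⟨x, l, hl, hxl⟩ : ∃ x ∈ coefIdeal R C, ∃ l ∈ LinearMap.range f, act x *ᵥ l ∉ U := by
    by_contra hcon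
    push Not at hcon
    refine hUlt.not_ge ?_
    rintro _ ⟨v, rfl⟩
    rw [hform _ f hf' v]
    refine Submodule.sum_mem _ fun i _ => ?_
    have := hcon (coefElem R C (θ' i) v) (Submodule.subset_span ⟨(θ' i, v), rfl⟩) _
      ⟨Pi.single i 1, rfl⟩
    simpa [act, coefElem, sum_mulVec, smul_mulVec] using this
  obtain ⟨hlP, hxl⟩ := hxl
  -- `coefIdeal • l + U` is a stable submodule strictly above `U`, hence everything
  let Q : Submodule (ZMod 2) (ι → ZMod 2) := Submodule.map
    ((Matrix.mulVecBilin (ZMod 2) (ZMod 2)).flip hl ∘ₗ act.toLinearMap) (coefIdeal R C) ⊔ U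
  have hQ : Stable Q := by
    intro c w hw
    obtain ⟨a, ⟨y, hy, rfl⟩, b, hb, rfl⟩ := Submodule.mem_sup.mp hw
    refine Submodule.mem_sup.mpr ⟨_, ⟨MonoidAlgebra.single c 1 * y,
      mul_mem_coefIdeal R C _ hy, rfl⟩, _, hUs c b hb, ?_⟩
    simp [act, mulVec_add, mulVec_mulVec]
  have hQle : Q ≤ LinearMap.range f := by
    refine sup_le ?_ hUlt.le
    rintro _ ⟨y, -, rfl⟩
    exact hact _ hP y hl hlP
  have hlQ : hl ∈ Q := by
    by_contra hne
    have hlt : Q < LinearMap.range f := lt_of_le_of_ne hQle fun h => hne (h ▸ hlP)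
    have h1 : Q ≤ U := hmax (mem_filter.mpr ⟨mem_univ _, hQ, hlt⟩) le_sup_right
    exact hxl (h1 (Submodule.mem_sup_left ⟨x, l, rfl⟩))
  obtain ⟨a, ⟨y, hy, rfl⟩, b, hb, hab⟩ := Submodule.mem_sup.mp hlQ
  have hlU : hl ∉ U := fun h => hxl (hact U hUs x hl h)
  refine ⟨y, hy, fun k hk => hlU ?_⟩
  have key : ∀ j, hl - act y ^ j *ᵥ hl ∈ U := by
    intro j
    induction j with
    | zero => simp
    | succ j ih =>
      have h1 : hl - act y ^ (j + 1) *ᵥ hl = (hl - act y *ᵥ hl) + act y *ᵥ (hl - act y ^ j *ᵥ hl) := by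
        rw [mulVec_sub, mulVec_mulVec, ← pow_succ']; abel
      rw [h1]
      refine add_mem ?_ (hact U hUs y _ ih)
      have h2 : hl - act y *ᵥ hl = b := by
        simp only [LinearMap.coe_comp, Function.comp_apply, AlgHom.toLinearMap_apply,
          LinearMap.flip_apply, Matrix.mulVecBilin_apply] at hab
        conv_lhs => arg 1; rw [← hab]
        abel
      rwa [h2]
  simpa [act, hk] using key k

end General

/-- In a finite monoid every element has an idempotent positive power. -/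
lemma exists_idempotent_pow {M : Type*} [Monoid M] [Finite M] (x : M) :
    ∃ k, 0 < k ∧ IsIdempotentElem (x ^ k) := by
  obtain ⟨a, b, hne, hab⟩ := Finite.exists_ne_map_eq_of_infinite fun i : ℕ => x ^ i
  wlog hlt : a < b generalizing a b
  · exact this b a hne.symm hab.symm (by omega)
  have hper : ∀ j, a ≤ j → ∀ q, x ^ (j + q * (b - a)) = x ^ j := by
    intro j hj q
    induction q with
    | zero => simp
    | succ q ih =>
      rw [show j + (q + 1) * (b - a) = (j - a) + q * (b - a) + b by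
          rw [Nat.succ_mul]; omega, pow_add, ← hab, ← pow_add,
        show j - a + q * (b - a) + a = j + q * (b - a) by omega, ih]
  refine ⟨(a + 1) * (b - a), Nat.mul_pos (by omega) (by omega), ?_⟩
  rw [IsIdempotentElem, ← pow_add]
  exact hper _ (le_trans (Nat.le_succ a) (Nat.le_mul_of_pos_right _ (by omega))) (a + 1)

/-- The trace of an idempotent matrix over `ℤ/2^N` is its rank. -/
lemma exists_trace_idempotent {N : ℕ} (hN : 0 < N) {ι : Type*} [Fintype ι] [DecidableEq ι]
    {E : Matrix ι ι (ZMod (2 ^ N))} (hE : E * E = E) :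
    ∃ r ≤ Fintype.card ι, E.trace = (r : ZMod (2 ^ N)) ∧ (r = 0 → E = 0) := by
  have hι : 1 < 2 ^ N := Nat.one_lt_two_pow hN.ne'
  have : NeZero (2 ^ N) := ⟨by positivity⟩
  have : Fact (1 < 2 ^ N) := ⟨hι⟩
  have : IsLocalRing (ZMod (2 ^ N)) := IsLocalRing.of_isUnit_or_isUnit_one_sub_self fun a => by
    rcases Nat.even_or_odd a.val with h | h
    · refine Or.inr ?_
      obtain ⟨k, hk⟩ := h
      have : IsNilpotent (-a) := by
        refine ⟨N, ?_⟩
        rw [neg_pow, ← ZMod.natCast_zmod_val a, hk, ← two_mul, Nat.cast_mul, mul_pow,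
          ← Nat.cast_pow, ZMod.natCast_self, zero_mul, mul_zero]
      simpa [sub_eq_add_neg] using this.isUnit_one_add
    · refine Or.inl ?_
      rw [← ZMod.natCast_zmod_val a, ZMod.isUnit_iff_coprime]
      exact (Nat.coprime_two_right.mpr h).pow_right N
  set f := Matrix.toLin' E
  have hf : IsIdempotentElem f := by
    show Matrix.toLinAlgEquiv' E * Matrix.toLinAlgEquiv' E = Matrix.toLinAlgEquiv' E
    rw [← map_mul, hE]
  have hp : LinearMap.IsProj (LinearMap.range f) f :=
    ⟨fun x => LinearMap.mem_range_self f x, by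
      rintro x ⟨y, rfl⟩
      exact LinearMap.congr_fun hf y⟩
  have hc : IsCompl (LinearMap.range f) (LinearMap.ker f) := hp.isCompl
  have hproj : ∀ {p q : Submodule (ZMod (2 ^ N)) (ι → ZMod (2 ^ N))}, IsCompl p q →
      Module.Free (ZMod (2 ^ N)) p := by
    intro p q h
    have : Module.Projective (ZMod (2 ^ N)) p :=
      Module.Projective.of_split p.subtype (Submodule.projectionOnto p q h)
        (LinearMap.ext fun x => Submodule.projectionOnto_apply_left h x)
    exact Module.free_of_flat_of_isLocalRing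
  have := hproj hc
  have := hproj hc.symm
  have h1 := hp.trace
  rw [Matrix.trace_toLin'_eq] at h1
  refine ⟨_, ?_, h1, fun h3 => ?_⟩
  · have := Submodule.finrank_le (LinearMap.range f)
    rwa [Module.finrank_pi] at this
  apply Matrix.toLin'.injective
  rw [map_zero]
  refine LinearMap.range_eq_bot.mp ?_
  have : Subsingleton (LinearMap.range f) := Module.finrank_eq_zero_iff_of_free _ _ |>.mp h3
  exact Submodule.eq_bot_of_subsingleton

/-- The trace of a nonzero idempotent matrix over `ℤ/2^N` is nonzero when `2^N` exceeds its size. -/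
lemma trace_idempotent_ne_zero {N : ℕ} {ι : Type*} [Fintype ι] [DecidableEq ι]
    (hN : Fintype.card ι < 2 ^ N) {E : Matrix ι ι (ZMod (2 ^ N))} (hE : E * E = E) (hE0 : E ≠ 0) :
    E.trace ≠ 0 := by
  rcases Nat.eq_zero_or_pos N with rfl | hN0
  · have := Fintype.card_eq_zero_iff.mp (Nat.lt_one_iff.mp (pow_zero 2 ▸ hN))
    exact absurd (Matrix.ext fun i => isEmptyElim i) hE0
  obtain ⟨r, hr, htr, h0⟩ := exists_trace_idempotent hN0 hE
  rw [htr]
  intro h
  exact hE0 (h0 (Nat.eq_zero_of_dvd_of_lt ((ZMod.natCast_eq_zero_iff _ _).mp h) (by omega)))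

lemma algAct_eq_lift {H κ : Type*} [Group H] [Fintype H] [Fintype κ] [DecidableEq κ] {N : ℕ}
    (hN : 0 < N) (M : H →* Matrix κ κ (ZMod 2)) (E : MonoidAlgebra (ZMod (2 ^ N)) H) :
    algAct hN M E = MonoidAlgebra.lift (ZMod 2) _ H M (MonoidAlgebra.mapRingHom H (red2 hN) E) := by
  rw [lift_apply_sum]
  simp [algAct]

/-- Reduction of an integral matrix representation modulo `2^N`. -/
def redPow (N : ℕ) {κ : Type*} [Fintype κ] [DecidableEq κ] {G : Type*} [Group G]
    (S : G →* Matrix κ κ ℤ) : G →* Matrix κ κ (ZMod (2 ^ N)) :=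
  ((Int.castRingHom (ZMod (2 ^ N))).mapMatrix).toMonoidHom.comp S

/-- The criterion, with separate lattices for the target of the map and for the trace formula: it
is enough that idempotents killing `W` kill `W₁`. -/
theorem kronecker_pos_of_hom' {n m : ℕ} {r v : n.Partition} (hr : ∀ i, row r i = m - i)
    (hm : m ≤ n) {d : ℕ} (R : Perm (Fin n) →* Matrix (Fin d) (Fin d) ℤ)
    (hR : ∀ g, (R g).trace = chi (beta r) g)
    {τ : Perm (Fin n)} (hτ : τ * τ = 1) (C : Subgroup (Perm (Fin n))) [DecidablePred (· ∈ C)]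
    (hC : ∀ g, g ∈ C ↔ τ * g = g * τ)
    {ι : Type*} [Fintype ι] [DecidableEq ι] (W : C →* Matrix ι ι ℤ) (ε : ℤ)
    (hW : ∀ c : C, (W c).trace = ε * ∑ f ∈ fixedCol n τ,
      if f ∘ ((c : Perm (Fin n))) = f then eps (beta v) (cnt f) else 0)
    {ι₁ : Type*} [Fintype ι₁] [DecidableEq ι₁] (W₁ : C →* Matrix ι₁ ι₁ ℤ)
    (hlink : ∀ N, 0 < N → Fintype.card ι < 2 ^ N → ∀ E : MonoidAlgebra (ZMod (2 ^ N)) C,
      IsIdempotentElem E →
      MonoidAlgebra.lift (ZMod (2 ^ N)) (Matrix ι ι (ZMod (2 ^ N))) C (redPow N W) E = 0 →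
      MonoidAlgebra.lift (ZMod (2 ^ N)) (Matrix ι₁ ι₁ (ZMod (2 ^ N))) C (redPow N W₁) E = 0)
    (f : (Fin d → ZMod 2) →ₗ[ZMod 2] (ι₁ → ZMod 2))
    (hf : ∀ (c : C) x, f (red R c *ᵥ x) = red W₁ c *ᵥ f x) (hf0 : f ≠ 0) :
    0 < kronecker r r v := by
  classical
  refine Nat.pos_of_ne_zero fun hk => ?_
  obtain ⟨e, S, hS⟩ := exists_intForm v
  obtain ⟨θ, hθ⟩ := exists_trace_eq_one hr hm R hR
  obtain ⟨x, hx, hnil⟩ := exists_not_nilpotent (C := C) hθ (red W₁) f hf hf0
  have : Finite (MonoidAlgebra (ZMod 2) C) :=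
    Finite.of_injective _ (MonoidAlgebra.coeffEquiv (R := ZMod 2) (M := C)).injective
  obtain ⟨k, hk0, hidem⟩ := exists_idempotent_pow x
  have hxk : x ^ k ∈ coefIdeal (red R) C := by
    obtain ⟨k, rfl⟩ := Nat.exists_eq_succ_of_ne_zero hk0.ne'
    rw [pow_succ]; exact mul_mem_coefIdeal _ _ _ hx
  set N := Fintype.card ι + 1
  have hN : 0 < N := Nat.succ_pos _
  let φ : MonoidAlgebra (ZMod (2 ^ N)) C →+* MonoidAlgebra (ZMod 2) C :=
    MonoidAlgebra.mapRingHom C (red2 hN)
  have hker : ∀ y ∈ RingHom.ker φ, IsNilpotent y := by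
    intro y hy
    refine ⟨N, ?_⟩
    have : NeZero (2 ^ N) := ⟨by positivity⟩
    have hcoeff : ∀ c, (2 : ℕ) ∣ (y.coeff c).val := fun c => by
      rw [← ZMod.natCast_eq_zero_iff, ← map_natCast (red2 hN), ZMod.natCast_zmod_val]
      simpa [φ] using congrArg (fun z : MonoidAlgebra (ZMod 2) C => z.coeff c) hy
    let z : MonoidAlgebra (ZMod (2 ^ N)) C :=
      ∑ c, MonoidAlgebra.single c (((y.coeff c).val / 2 : ℕ) : ZMod (2 ^ N))
    have hz : y = (2 : ZMod (2 ^ N)) • z := by
      ext c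
      simp only [z, smul_sum, MonoidAlgebra.coeff_sum, Finsupp.finsetSum_apply,
        MonoidAlgebra.coeff_smul, Finsupp.smul_apply, MonoidAlgebra.coeff_single]
      rw [Finset.sum_eq_single c (fun b _ hb => by simp [hb]) (by simp), Finsupp.single_eq_same,
        smul_eq_mul]
      obtain ⟨q, hq⟩ := hcoeff c
      rw [hq, Nat.mul_div_cancel_left q (by norm_num), ← ZMod.natCast_zmod_val (y.coeff c), hq]
      push_cast
      rfl
    rw [hz, smul_pow, show (2 : ZMod (2 ^ N)) ^ N = ((2 ^ N : ℕ) : ZMod (2 ^ N)) by push_cast; rfl,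
      ZMod.natCast_self, zero_smul]
  have hsurj : x ^ k ∈ φ.range := by
    refine ⟨∑ c, MonoidAlgebra.single c (((x ^ k).coeff c).val : ZMod (2 ^ N)), ?_⟩
    ext c
    simp only [φ, map_sum, MonoidAlgebra.coe_mapRingHom, MonoidAlgebra.map_single,
      MonoidAlgebra.coeff_sum, Finsupp.finsetSum_apply, MonoidAlgebra.coeff_single]
    rw [Finset.sum_eq_single c (fun b _ hb => by simp [hb]) (by simp), Finsupp.single_eq_same]
    show red2 hN _ = _
    rw [map_natCast, ZMod.natCast_zmod_val]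
  obtain ⟨E, hE, hEx⟩ := exists_isIdempotentElem_eq_of_ker_isNilpotent φ hker (x ^ k) hsurj hidem
  have ht : (⟨τ, (hC τ).mpr rfl⟩ : C) * ⟨τ, (hC τ).mpr rfl⟩ = 1 := Subtype.ext hτ
  have hne : ∑ c : C, E.coeff c * (chi (beta v) (τ * (c : Perm (Fin n))) : ZMod (2 ^ N)) ≠ 0 := by
    rw [sum_chi_tau hN (beta v) C hτ ((hC τ).mpr rfl) (fun g hg => (hC g).mp hg) hE]
    intro h0
    let Wm := redPow N W
    set M := MonoidAlgebra.lift (ZMod (2 ^ N)) (Matrix ι ι (ZMod (2 ^ N))) C Wm E
    have hcard : Fintype.card ι < 2 ^ N := Nat.lt_two_pow_self.trans' (Nat.lt_succ_self _)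
    have hM0 : M ≠ 0 := by
      intro h
      refine hnil k ?_
      rw [← map_pow, ← hEx, ← algAct_eq_lift hN (red W₁) E]
      have := congrArg (red2 hN).mapMatrix (hlink N hN hcard E hE h)
      rw [lift_apply_sum, map_sum, map_zero] at this
      refine Eq.trans ?_ this
      refine sum_congr rfl fun c _ => ?_
      ext i j
      simp [redPow, red]
    refine trace_idempotent_ne_zero (Nat.lt_two_pow_self.trans' (Nat.lt_succ_self _))
      (show M * M = M by rw [← map_mul, hE.eq]) hM0 ?_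
    rw [show M = _ from lift_apply_sum Wm E, Matrix.trace_sum]
    have hWm : ∀ c, (Wm c).trace = ((W c).trace : ZMod (2 ^ N)) := fun c => by
      simp [Wm, redPow, Matrix.trace]
    simp only [Matrix.trace_smul, smul_eq_mul, hWm, hW, Int.cast_mul, Int.cast_sum]
    have : (0 : ZMod (2 ^ N)) = (ε : ZMod (2 ^ N)) * 0 := by rw [mul_zero]
    rw [this, ← h0, mul_sum]
    simp only [mul_sum]
    rw [sum_comm]
    refine sum_congr rfl fun g _ => sum_congr rfl fun c _ => ?_
    split_ifs <;> simp <;> ring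
  obtain ⟨w, hw1, hw2, hw3⟩ := exists_homology hN (S.comp C.subtype) hE ht
    (fun g => Subtype.ext ((hC g).mp g.2)) (by simpa [← map_mul, hS] using hne)
  refine hw3 ?_
  have h1 := (annihilates_of_kronecker_eq_zero hk R hR S hS).coefIdeal_homology hτ hC hxk w hw2
  rw [algAct_eq_lift, hEx, show red (S.comp C.subtype) = (red S).comp C.subtype from rfl] at hw1
  rw [hw1] at h1
  exact h1

/-- The criterion with one lattice. -/
theorem kronecker_pos_of_hom {n m : ℕ} {r v : n.Partition} (hr : ∀ i, row r i = m - i)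
    (hm : m ≤ n) {d : ℕ} (R : Perm (Fin n) →* Matrix (Fin d) (Fin d) ℤ)
    (hR : ∀ g, (R g).trace = chi (beta r) g)
    {τ : Perm (Fin n)} (hτ : τ * τ = 1) (C : Subgroup (Perm (Fin n))) [DecidablePred (· ∈ C)]
    (hC : ∀ g, g ∈ C ↔ τ * g = g * τ)
    {ι : Type*} [Fintype ι] [DecidableEq ι] (W : C →* Matrix ι ι ℤ) (ε : ℤ)
    (hW : ∀ c : C, (W c).trace = ε * ∑ f ∈ fixedCol n τ,
      if f ∘ ((c : Perm (Fin n))) = f then eps (beta v) (cnt f) else 0)
    (f : (Fin d → ZMod 2) →ₗ[ZMod 2] (ι → ZMod 2))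
    (hf : ∀ (c : C) x, f (red R c *ᵥ x) = red W c *ᵥ f x) (hf0 : f ≠ 0) :
    0 < kronecker r r v :=
  kronecker_pos_of_hom' hr hm R hR hτ C hC W ε hW W (fun _ _ _ _ _ h => h) f hf hf0

end Vale.Agent.P197.Criterion
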