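import Vale.Agent.P197.Criterion.Colouring
import Vale.Agent.P197.Littlewood

/-!
# The criterion in terms of 2-core and 2-quotient

Every beta set splits by parity into a 2-quotient and a core, and the criterion becomes: a
colouring functional into the lattice `Ind (S^α ⊗ S^β) ⊗ S^core` with nonzero sum over the column
group of the staircase gives `g(ρ, ρ, ν) > 0`.
-/

open Finset Equiv Matrix

namespace Vale.Agent.P197.Littlewood

open SymChar

/-- Splitting a beta set by parity. -/
theorem exists_quotient {N n : ℕ} (a : Fin N → ℤ) (ha : IsBeta n a) :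
    ∃ (n₀ n₁ ka kb f : ℕ) (e : Fin n₀ ⊕ Fin n₁ ≃ Fin N) (A : Fin n₀ → ℤ) (B : Fin n₁ → ℤ),
      join e A B = a ∧ IsBeta ka A ∧ IsBeta kb B ∧
        ∑ i, join e (delta n₀) (delta n₁) i = ∑ i, delta N i + f ∧ n = 2 * (ka + kb) + f := by
  classical
  set E : Finset (Fin N) := {i | Even (a i)}
  let eE := E.orderEmbOfFin rfl
  let eO := Eᶜ.orderEmbOfFin rfl
  have hev : ∀ i, Even (a (eE i)) := fun i => (mem_filter.mp (E.orderEmbOfFin_mem rfl i)).2
  have hod : ∀ i, ¬ Even (a (eO i)) := fun i hi =>
    mem_compl.mp (Eᶜ.orderEmbOfFin_mem rfl i) (mem_filter.mpr ⟨mem_univ _, hi⟩)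
  let e : Fin #E ⊕ Fin #Eᶜ ≃ Fin N := Equiv.ofBijective (Sum.elim eE eO) (by
    constructor
    · rintro (i | i) (j | j) h
      · exact congrArg _ (eE.injective h)
      · exact absurd (show Even (a (eO j)) by
          rw [show eO j = eE i from h.symm]; exact hev i) (hod j)
      · exact absurd (show Even (a (eO i)) by
          rw [show eO i = eE j from h]; exact hev j) (hod i)
      · exact congrArg _ (eO.injective h)
    · intro x
      by_cases hx : x ∈ E
      · have : x ∈ Set.range eE := by rw [E.range_orderEmbOfFin rfl]; exact hx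
        obtain ⟨i, hi⟩ := this
        exact ⟨.inl i, hi⟩
      · have : x ∈ Set.range eO := by
          rw [Eᶜ.range_orderEmbOfFin rfl]; exact mem_compl.mpr hx
        obtain ⟨i, hi⟩ := this
        exact ⟨.inr i, hi⟩)
  let A : Fin #E → ℤ := fun i => a (eE i) / 2
  let B : Fin #Eᶜ → ℤ := fun i => a (eO i) / 2
  have hA2 : ∀ i, 2 * A i = a (eE i) := fun i => by
    obtain ⟨r, hr⟩ := hev i
    simp only [A]; omega
  have hB2 : ∀ i, 2 * B i + 1 = a (eO i) := fun i => by
    have h1 := Int.emod_two_ne_zero.mp fun h => hod i (Int.even_iff.mpr h)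
    simp only [B]; omega
  have hAanti : ∀ i j, i < j → A j < A i := fun i j hij => by
    have := ha.anti _ _ (eE.strictMono hij)
    rw [← hA2, ← hA2] at this; omega
  have hBanti : ∀ i j, i < j → B j < B i := fun i j hij => by
    have := ha.anti _ _ (eO.strictMono hij)
    rw [← hB2, ← hB2] at this; omega
  have hAnn : ∀ i, 0 ≤ A i := fun i => by have := ha.nonneg (eE i); simp only [A]; omega
  have hBnn : ∀ i, 0 ≤ B i := fun i => by have := ha.nonneg (eO i); simp only [B]; omega
  have hinjA : Function.Injective A := fun i j h => by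
    rcases lt_trichotomy i j with hlt | heq | hlt
    · have := hAanti i j hlt; omega
    · exact heq
    · have := hAanti j i hlt; omega
  have hinjB : Function.Injective B := fun i j h => by
    rcases lt_trichotomy i j with hlt | heq | hlt
    · have := hBanti i j hlt; omega
    · exact heq
    · have := hBanti j i hlt; omega
  obtain ⟨hleA, -⟩ := sum_delta_le hinjA hAnn
  obtain ⟨hleB, -⟩ := sum_delta_le hinjB hBnn
  have hsplit : ∀ X Y, ∑ x, join e X Y x = ∑ i, 2 * X i + ∑ j, (2 * Y j + 1) := by
    intro X Y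
    rw [← e.sum_comp, Fintype.sum_sum_type]
    simp [join]
  have hjoin : join e A B = a := by
    funext x
    obtain ⟨y, rfl⟩ := e.surjective x
    cases y with
    | inl i => simp [join]; exact hA2 i
    | inr i => simp [join]; exact hB2 i
  -- the core is at least the empty partition
  have hcore : ∑ i, delta N i ≤ ∑ x, join e (delta #E) (delta #Eᶜ) x := by
    refine (sum_delta_le ?_ ?_).1
    · intro x y h
      obtain ⟨x, rfl⟩ := e.surjective x
      obtain ⟨y, rfl⟩ := e.surjective y
      cases x <;> cases y <;> simp [join, delta] at h <;>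
        first
          | (exact congrArg e (by simp; exact Fin.ext (by omega)))
          | omega
    · intro x
      obtain ⟨x, rfl⟩ := e.surjective x
      cases x with
      | inl i => have := delta_nonneg i; simp [join]; omega
      | inr i => have := delta_nonneg i; simp [join]; omega
  refine ⟨_, _, (∑ i, A i - ∑ i, delta #E i).toNat, (∑ i, B i - ∑ i, delta #Eᶜ i).toNat,
    (∑ x, join e (delta #E) (delta #Eᶜ) x - ∑ i, delta N i).toNat, e, A, B, hjoin,
    ⟨hAanti, hAnn, ?_⟩, ⟨hBanti, hBnn, ?_⟩, ?_, ?_⟩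
  · rw [Int.toNat_of_nonneg (by omega)]; ring
  · rw [Int.toNat_of_nonneg (by omega)]; ring
  · rw [Int.toNat_of_nonneg (by omega)]; ring
  · have h1 := ha.total
    rw [← hjoin, hsplit] at h1
    have h2 := hsplit (delta #E) (delta #Eᶜ)
    simp only [sum_add_distrib, ← mul_sum, sum_const, nsmul_eq_mul, mul_one] at h1 h2
    omega

end Vale.Agent.P197.Littlewood

namespace Vale.Agent.P197.Criterion

open SymChar Littlewood

/-- The criterion for a staircase square in terms of the 2-quotient of `ν`: a functional on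
colourings with values in the reduction of `Ind (S^α ⊗ S^β) ⊗ S^core`, equivariant for the
centraliser of the pairing involution and with nonzero sum over the column group. -/
theorem kronecker_pos_of_quotient {n m f ka kb n₀ n₁ dA dB dC : ℕ} {r v : n.Partition}
    (hr : ∀ i, row r i = m - i) (hm : m ≤ n)
    (e : (Fin (ka + kb) × Bool) ⊕ Fin f ≃ Fin n) (e' : Fin n₀ ⊕ Fin n₁ ≃ Fin n)
    {A : Fin n₀ → ℤ} {B : Fin n₁ → ℤ} (hjoin : join e' A B = beta v)
    (hA : IsBeta ka A) (hB : IsBeta kb B)
    (SA : Perm (Fin ka) →* Matrix (Fin dA) (Fin dA) ℤ) (hSA : ∀ g, (SA g).trace = chi A g)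
    (SB : Perm (Fin kb) →* Matrix (Fin dB) (Fin dB) ℤ) (hSB : ∀ g, (SB g).trace = chi B g)
    (SC : Perm (Fin f) →* Matrix (Fin dC) (Fin dC) ℤ) (ε : ℤ)
    (hSC : ∀ g, (SC g).trace = ε * chi (join e' (delta n₀) (delta n₁)) g)
    (C : Subgroup (Perm (Fin n))) [DecidablePred (· ∈ C)]
    (hC : ∀ g, g ∈ C ↔ pairInv e * g = g * pairInv e)
    [Fintype (Perm (Fin (ka + kb)) ⧸ (youngHom ka kb).range)]
    [DecidableEq (Perm (Fin (ka + kb)) ⧸ (youngHom ka kb).range)]
    (F : (Fin n → Fin n) →
      ((Perm (Fin (ka + kb)) ⧸ (youngHom ka kb).range) × (Fin dA × Fin dB)) × Fin dC → ZMod 2)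
    (hF : ∀ (c : C) g, cnt g = cnt (tableau r) → F (g ∘ ⇑((c : Perm (Fin n))⁻¹)) =
      red (quotientRep C (fun g hg => (hC g).mp hg) SA SB SC) c *ᵥ F g)
    (hne : ∑ π ∈ colStab (tableau r), F (tableau r ∘ π) ≠ 0) : 0 < kronecker r r v :=
  kronecker_pos_of_colouring hr hm (pairInv_sq e) C hC _ ε
    (fun c => by
      rw [← hjoin]
      exact trace_quotientRep C (fun g hg => (hC g).mp hg) e' hA hB SA hSA SB hSB SC ε hSC c)
    F hF hne

end Vale.Agent.P197.Criterion
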